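import Vale.Agent.P262.M2.Blocks
import Vale.Agent.P262.H148.Psi

/-!
# P262, milestone 2: the potential of the interface, pointwise star steps

`starf_good` : labelwise star step.  `starf_bad` : integrated star step where both masses are at
least `1 / 8` (the potential is linear there).
-/

set_option linter.all false

open MeasureTheory ProbabilityTheory Set
open scoped ENNReal
open Vale.Agent.P262.H148 (slope Psi)

namespace Vale.Agent.P262.M2.Sys

variable {E : Type*} [NormedAddCommGroup E] [InnerProductSpace ℝ E] [FiniteDimensional ℝ E]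
  [MeasurableSpace E] [BorelSpace E] {S : Sys E} {p : List ℕ} {m : ℕ} {x : E}

lemma AR_pos (p : List ℕ) (m : ℕ) (x : E) : 0 < (S.A p m x).toReal :=
  ENNReal.toReal_pos (S.A_pos p m x).ne' (S.A_ne_top p m x)

lemma slpR_eq (s : ℝ) : S.slpR p m x s = slope S.th (S.A p m x).toReal s := rfl

lemma slp_eq {s : ℝ≥0∞} (hs : s ≠ ⊤) :
    S.slp p m x s = ENNReal.ofReal (slope S.th (S.A p m x).toReal s.toReal) := by
  have hA := AR_pos (S := S) p m x
  have hAt := S.A_ne_top p m x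
  unfold slp H148.slope
  have h8 : (1 / 8 : ℝ≥0∞) ≠ ⊤ := by
    rw [one_div]
    exact ENNReal.inv_ne_top.2 (by norm_num)
  have e8 : ((1 / 8 : ℝ≥0∞)).toReal = 1 / 8 := by simp
  have hmin : min s (1 / 8) ≠ ⊤ := ne_top_of_le_ne_top h8 (min_le_right _ _)
  have e1 : (min s (1 / 8)).toReal = min s.toReal (1 / 8) := by
    rw [ENNReal.toReal_min hs h8, e8]
  have hmax : max (S.A p m x) (min s (1 / 8)) ≠ ⊤ := by
    rcases max_choice (S.A p m x) (min s (1 / 8)) with h | h <;> rw [h]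
    · exact hAt
    · exact hmin
  have e2 : (max (S.A p m x) (min s (1 / 8))).toReal
      = max (S.A p m x).toReal (min s.toReal (1 / 8)) := by
    rw [ENNReal.toReal_max hAt hmin, e1]
  have hpos : 0 < max (S.A p m x).toReal (min s.toReal (1 / 8)) := hA.trans_le (le_max_left _ _)
  have hm0 : max (S.A p m x) (min s (1 / 8)) ≠ 0 := by
    intro h
    rw [h] at e2
    simp only [ENNReal.toReal_zero] at e2
    rw [← e2] at hpos
    exact lt_irrefl _ hpos
  have e3 : S.A p m x / max (S.A p m x) (min s (1 / 8))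
      = ENNReal.ofReal ((S.A p m x).toReal / max (S.A p m x).toReal (min s.toReal (1 / 8))) := by
    rw [ENNReal.ofReal_div_of_pos hpos, ENNReal.ofReal_toReal hAt, ← e2,
      ENNReal.ofReal_toReal hmax]
  rw [e3, ENNReal.ofReal_rpow_of_pos (div_pos hA hpos)]

lemma PsiE_eq (s : ℝ≥0∞) :
    S.PsiE p m x s = ENNReal.ofReal (Psi S.th (S.A p m x).toReal s.toReal) := rfl

lemma Psi_nonneg {s : ℝ} (hs : 0 ≤ s) : 0 ≤ Psi S.th (S.A p m x).toReal s := by
  have h := H148.Psi_mono S.hth.le (AR_pos (S := S) p m x) hs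
  rwa [H148.Psi_zero] at h

lemma slope_nonneg (s : ℝ) : 0 ≤ slope S.th (S.A p m x).toReal s :=
  (H148.slope_pos (AR_pos (S := S) p m x) s).le

lemma slp_anti' {s s' : ℝ≥0∞} (h : s' ≤ s) : S.slp p m x s ≤ S.slp p m x s' := by
  unfold slp
  have h1 : max (S.A p m x) (min s' (1 / 8)) ≤ max (S.A p m x) (min s (1 / 8)) :=
    max_le_max_left _ (min_le_min_right _ h)
  exact ENNReal.rpow_le_rpow (ENNReal.div_le_div_left h1 _) S.hth.le

/-- the common weight of the interface is at most the slope at the first mass -/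
lemma sw_le : S.sw p m x ≤ S.slp p m x (S.F p m x) := slp_anti' (le_max_left _ _)

/-- **labelwise star step** -/
theorem starf_good {G F F' : ℝ≥0∞} {C : ℝ} (hC : 0 ≤ C) (hF : F ≠ ⊤)
    (h : G + ENNReal.ofReal C * F' ≤ ENNReal.ofReal C * F) :
    S.slp p m x F * G + ENNReal.ofReal C * S.PsiE p m x F' ≤ ENNReal.ofReal C * S.PsiE p m x F := by
  have hA := AR_pos (S := S) p m x
  have hCF : ENNReal.ofReal C * F ≠ ⊤ := ENNReal.mul_ne_top ENNReal.ofReal_ne_top hF
  have hG : G ≠ ⊤ := ne_top_of_le_ne_top hCF (le_self_add.trans h)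
  rcases hC.eq_or_lt with h0 | hC0
  · have h1 : G = 0 := by
      rw [← h0] at h
      simpa using h
    rw [h1, ← h0]
    simp
  have hF' : F' ≠ ⊤ := by
    intro htop
    rw [htop, ENNReal.mul_top (by positivity)] at h
    exact hCF (top_le_iff.1 (le_add_self.trans h))
  -- real form
  have hreal : G.toReal + C * F'.toReal ≤ C * F.toReal := by
    have h1 := ENNReal.toReal_mono hCF h
    rw [ENNReal.toReal_add hG (ENNReal.mul_ne_top ENNReal.ofReal_ne_top hF'), ENNReal.toReal_mul,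
      ENNReal.toReal_mul, ENNReal.toReal_ofReal hC] at h1
    exact h1
  have hs := slope_nonneg (S := S) (p := p) (m := m) (x := x) F.toReal
  have key := H148.Psi_concave (th := S.th) S.hth.le hA F.toReal F'.toReal
  have hG0 : 0 ≤ G.toReal := ENNReal.toReal_nonneg
  have hfin : slope S.th (S.A p m x).toReal F.toReal * G.toReal
      + C * Psi S.th (S.A p m x).toReal F'.toReal ≤ C * Psi S.th (S.A p m x).toReal F.toReal := by
    have h2 : slope S.th (S.A p m x).toReal F.toReal * G.toReal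
        ≤ slope S.th (S.A p m x).toReal F.toReal * (C * (F.toReal - F'.toReal)) :=
      mul_le_mul_of_nonneg_left (by linarith) hs
    have h3 : C * Psi S.th (S.A p m x).toReal F'.toReal ≤ C * (Psi S.th (S.A p m x).toReal F.toReal
        + slope S.th (S.A p m x).toReal F.toReal * (F'.toReal - F.toReal)) :=
      mul_le_mul_of_nonneg_left key hC
    linarith
  have hP' : 0 ≤ Psi S.th (S.A p m x).toReal F'.toReal := Psi_nonneg ENNReal.toReal_nonneg
  rw [slp_eq hF, PsiE_eq, PsiE_eq, ← ENNReal.ofReal_mul hC, ← ENNReal.ofReal_mul hC]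
  conv_lhs => rw [← ENNReal.ofReal_toReal hG]
  rw [← ENNReal.ofReal_mul hs, ← ENNReal.ofReal_add (mul_nonneg hs hG0) (mul_nonneg hC hP')]
  exact ENNReal.ofReal_le_ofReal hfin

lemma eighth_toReal {s : ℝ≥0∞} (h : 1 / 8 ≤ s) (hs : s ≠ ⊤) : (1 : ℝ) / 8 ≤ s.toReal := by
  have h1 := ENNReal.toReal_mono hs h
  simpa using h1

/-- the slope at a mass `≥ 1 / 8` -/
theorem slp_big (hA8 : S.A p m x ≤ 1 / 8) {s : ℝ≥0∞} (h : 1 / 8 ≤ s) (hs : s ≠ ⊤) :
    S.slp p m x s = ENNReal.ofReal (8 ^ S.th) * S.As S.th p m x := by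
  have hA := AR_pos (S := S) p m x
  have h8 : (S.A p m x).toReal ≤ 1 / 8 := by
    have h1 := ENNReal.toReal_mono (by simp : (1 / 8 : ℝ≥0∞) ≠ ⊤) hA8
    simpa using h1
  rw [slp_eq hs, H148.slope_big h8 (eighth_toReal h hs), Real.mul_rpow (by norm_num) hA.le,
    ENNReal.ofReal_mul (by positivity), ← S.A_rpow S.hth.le p m x,
    ← ENNReal.ofReal_rpow_of_pos hA, ENNReal.ofReal_toReal (S.A_ne_top p m x)]

/-- the potential is linear above `1 / 8` -/
theorem PsiE_big (hA8 : S.A p m x ≤ 1 / 8) {s s' : ℝ≥0∞} (h : 1 / 8 ≤ s) (hs : s ≠ ⊤)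
    (h' : 1 / 8 ≤ s') (hs' : s' ≠ ⊤) :
    S.PsiE p m x s' + S.slp p m x s * s = S.PsiE p m x s + S.slp p m x s * s' := by
  have hA := AR_pos (S := S) p m x
  have h8 : (S.A p m x).toReal ≤ 1 / 8 := by
    have h1 := ENNReal.toReal_mono (by simp : (1 / 8 : ℝ≥0∞) ≠ ⊤) hA8
    simpa using h1
  have e1 := H148.Psi_lin (th := S.th) hA h8 (eighth_toReal h hs) (eighth_toReal h' hs')
  have e2 := H148.slope_big (th := S.th) h8 (eighth_toReal h hs)
  have hsl := slope_nonneg (S := S) (p := p) (m := m) (x := x) s.toReal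
  have p1 : 0 ≤ Psi S.th (S.A p m x).toReal s'.toReal := Psi_nonneg ENNReal.toReal_nonneg
  have p2 : 0 ≤ Psi S.th (S.A p m x).toReal s.toReal := Psi_nonneg ENNReal.toReal_nonneg
  have hr : Psi S.th (S.A p m x).toReal s'.toReal
      + slope S.th (S.A p m x).toReal s.toReal * s.toReal
      = Psi S.th (S.A p m x).toReal s.toReal
      + slope S.th (S.A p m x).toReal s.toReal * s'.toReal := by
    rw [e2]
    linarith
  have q1 : S.slp p m x s * s = ENNReal.ofReal (slope S.th (S.A p m x).toReal s.toReal * s.toReal) := by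
    rw [ENNReal.ofReal_mul hsl, ← slp_eq hs, ENNReal.ofReal_toReal hs]
  have q2 : S.slp p m x s * s'
      = ENNReal.ofReal (slope S.th (S.A p m x).toReal s.toReal * s'.toReal) := by
    rw [ENNReal.ofReal_mul hsl, ← slp_eq hs, ENNReal.ofReal_toReal hs']
  rw [q1, q2, PsiE_eq, PsiE_eq,
    ← ENNReal.ofReal_add p1 (mul_nonneg hsl ENNReal.toReal_nonneg),
    ← ENNReal.ofReal_add p2 (mul_nonneg hsl ENNReal.toReal_nonneg), hr]

/-- **integrated star step above `1 / 8`**: `w` the weight of the region -/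
theorem starf_bad {μ : Measure E} {w s G F F' P P' : E → ℝ≥0∞} {C : ℝ≥0∞} (hC : C ≠ ⊤)
    (hwm : Measurable w) (hsm : Measurable s) (hGm : Measurable G) (hFm : Measurable F)
    (hF'm : Measurable F') (hPm : Measurable P) (hP'm : Measurable P')
    (hlin : ∀ y, w y ≠ 0 → P' y + s y * F y = P y + s y * F' y)
    (hfin : ∫⁻ y, w y * (s y * F y) ∂μ ≠ ⊤)
    (h : ∫⁻ y, w y * (s y * (G y + C * F' y)) ∂μ ≤ C * ∫⁻ y, w y * (s y * F y) ∂μ) :
    ∫⁻ y, w y * (s y * G y) ∂μ + C * ∫⁻ y, w y * P' y ∂μ ≤ C * ∫⁻ y, w y * P y ∂μ := by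
  have mP' : Measurable fun y => w y * P' y := hwm.mul hP'm
  have mP : Measurable fun y => w y * P y := hwm.mul hPm
  have mF' : Measurable fun y => w y * (s y * F' y) := hwm.mul (hsm.mul hF'm)
  have mG : Measurable fun y => w y * (s y * G y) := hwm.mul (hsm.mul hGm)
  have e1 : ∫⁻ y, w y * P' y ∂μ + ∫⁻ y, w y * (s y * F y) ∂μ
      = ∫⁻ y, w y * P y ∂μ + ∫⁻ y, w y * (s y * F' y) ∂μ := by
    rw [← lintegral_add_left mP', ← lintegral_add_left mP]
    congr 1
    funext y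
    by_cases h0 : w y = 0
    · rw [h0]; simp
    · rw [← mul_add, ← mul_add, hlin y h0]
  have e2 : ∫⁻ y, w y * (s y * (G y + C * F' y)) ∂μ
      = ∫⁻ y, w y * (s y * G y) ∂μ + C * ∫⁻ y, w y * (s y * F' y) ∂μ := by
    rw [← lintegral_const_mul C mF', ← lintegral_add_left mG]
    congr 1
    funext y
    ring
  have hCF : C * ∫⁻ y, w y * (s y * F y) ∂μ ≠ ⊤ := ENNReal.mul_ne_top hC hfin
  refine ENNReal.le_of_add_le_add_right hCF ?_
  calc ∫⁻ y, w y * (s y * G y) ∂μ + C * ∫⁻ y, w y * P' y ∂μ + C * ∫⁻ y, w y * (s y * F y) ∂μ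
      = ∫⁻ y, w y * (s y * G y) ∂μ
        + C * (∫⁻ y, w y * P' y ∂μ + ∫⁻ y, w y * (s y * F y) ∂μ) := by ring
    _ = (∫⁻ y, w y * (s y * G y) ∂μ + C * ∫⁻ y, w y * (s y * F' y) ∂μ)
        + C * ∫⁻ y, w y * P y ∂μ := by rw [e1]; ring
    _ ≤ C * ∫⁻ y, w y * (s y * F y) ∂μ + C * ∫⁻ y, w y * P y ∂μ := by
        rw [← e2]
        gcongr
    _ = _ := by ring

end Vale.Agent.P262.M2.Sys
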