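import Mathlib
import Vale.Agent.P262.H493.Flag
import Vale.Agent.P262.H395.Fib

/-!
# P262, scheme S1, block RIM: cutting with the ball at the leaves

`K` convex, contained in the ball of radius `R`. On a line in direction `v` on which `K^c` has
Gaussian mass at least `exp (-(p (R^2 - |label|^2) - Lam))`, the mass gained by Banaszczyk's
operation `star K v` inside the ball is at least half of the mass gained without the ball.
-/

set_option linter.all false

open MeasureTheory ProbabilityTheory Set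
open scoped ENNReal RealInnerProductSpace
open Vale.Agent.P262.H395 Vale.Agent.P262.H493

namespace Vale.Agent.P262.H59

section oned

/-- Gaussian mass of an interval is at most that of another one of the same length closer to 0 -/
lemma gauss_compare {S T : Set ℝ} (hS : MeasurableSet S) (hT : MeasurableSet T) {r : ℝ}
    (hr : 0 ≤ r) (h1 : ∀ x ∈ S, r ≤ |x|) (h2 : ∀ x ∈ T, |x| ≤ r) (hv : volume S ≤ volume T) :
    gaussianReal 0 1 S ≤ gaussianReal 0 1 T := by
  have e1 : ∀ x ∈ S, ee x ≤ ee r := by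
    intro x hx
    unfold ee
    apply ENNReal.ofReal_le_ofReal
    apply Real.exp_le_exp.mpr
    have := h1 x hx
    have h3 : r ^ 2 ≤ x ^ 2 := by
      rw [← sq_abs x]
      exact pow_le_pow_left₀ hr this 2
    nlinarith
  have e2 : ∀ x ∈ T, ee r ≤ ee x := by
    intro x hx
    unfold ee
    apply ENNReal.ofReal_le_ofReal
    apply Real.exp_le_exp.mpr
    have := h2 x hx
    have h3 : x ^ 2 ≤ r ^ 2 := by
      rw [← sq_abs x]
      exact pow_le_pow_left₀ (abs_nonneg x) this 2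
    nlinarith
  calc gaussianReal 0 1 S ≤ kk * ee r * volume S := gauss_le e1 hS
    _ ≤ kk * ee r * volume T := mul_le_mul' le_rfl hv
    _ ≤ gaussianReal 0 1 T := gauss_ge e2 hT

lemma tail_right {t : ℝ} (ht : 0 ≤ t) :
    gaussianReal 0 1 {x | t ≤ x} ≤ ENNReal.ofReal (Real.exp (-t ^ 2 / 2)) := by
  have h := measure_ge_le_exp_mul_mgf (μ := gaussianReal 0 1) (X := id) t ht
    (integrable_exp_mul_gaussianReal t)
  rw [mgf_id_gaussianReal] at h
  have e : Real.exp (-t * t) * Real.exp (0 * t + ((1 : NNReal) : ℝ) * t ^ 2 / 2)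
      = Real.exp (-t ^ 2 / 2) := by
    rw [← Real.exp_add]
    congr 1
    push_cast
    ring
  simp only [id] at h
  rw [e] at h
  rw [← ENNReal.ofReal_toReal (measure_ne_top (gaussianReal 0 1) {x | t ≤ x})]
  exact ENNReal.ofReal_le_ofReal h

lemma tail_left {t : ℝ} (ht : 0 ≤ t) :
    gaussianReal 0 1 {x | x ≤ -t} ≤ ENNReal.ofReal (Real.exp (-t ^ 2 / 2)) := by
  have h2 := gaussianReal_map_neg (μ := 0) (v := 1)
  rw [neg_zero] at h2
  calc gaussianReal 0 1 {x | x ≤ -t}
      = ((gaussianReal 0 1).map (fun x => -x)) {x | x ≤ -t} := by rw [h2]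
    _ = gaussianReal 0 1 ((fun x => -x) ⁻¹' {x | x ≤ -t}) :=
        Measure.map_apply measurable_neg measurableSet_Iic
    _ = gaussianReal 0 1 {x | t ≤ x} := by
        congr 1
        ext x
        simp
    _ ≤ _ := tail_right ht

lemma tail_two {t : ℝ} (ht : 0 ≤ t) {S : Set ℝ} (hS : ∀ x ∈ S, t ≤ |x|) :
    gaussianReal 0 1 S ≤ ENNReal.ofReal (2 * Real.exp (-t ^ 2 / 2)) := by
  have h1 : S ⊆ {x | t ≤ x} ∪ {x | x ≤ -t} := by
    intro x hx
    rcases le_abs.mp (hS x hx) with h | h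
    · exact Or.inl h
    · exact Or.inr (show x ≤ -t by linarith)
  refine (measure_mono h1).trans ((measure_union_le _ _).trans ?_)
  refine (add_le_add (tail_right ht) (tail_left ht)).trans (le_of_eq ?_)
  rw [← ENNReal.ofReal_add (Real.exp_pos _).le (Real.exp_pos _).le, two_mul]

/-- the star operation on a line -/
def star1 (I : Set ℝ) (h : ℝ) : Set ℝ := {x | ∃ l ∈ I, ∃ r ∈ I, 2 * h ≤ r - l ∧ l - h ≤ x ∧ x ≤ r + h}

lemma rim1 {I : Set ℝ} (hI : IsClosed I) (hc : I.OrdConnected) {ρ h : ℝ} (hh : 0 < h)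
    (hsub : I ⊆ Icc (-ρ) ρ)
    (hA : ENNReal.ofReal (2 * Real.exp (-(max (ρ - h) 0) ^ 2 / 2)) < gaussianReal 0 1 Iᶜ) :
    gaussianReal 0 1 (star1 I h \ I) ≤ 2 * gaussianReal 0 1 ((star1 I h ∩ Icc (-ρ) ρ) \ I) := by
  by_cases hne : (star1 I h).Nonempty
  swap
  · rw [not_nonempty_iff_eq_empty] at hne
    rw [hne]
    simp
  obtain ⟨x0, l0, hl0, r0, hr0, h0, -, -⟩ := hne
  have hbb : BddBelow I := ⟨-ρ, fun x hx => (hsub hx).1⟩
  have hba : BddAbove I := ⟨ρ, fun x hx => (hsub hx).2⟩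
  have hIne : I.Nonempty := ⟨l0, hl0⟩
  set a := sInf I with ha
  set b := sSup I with hb
  have haI : a ∈ I := hI.csInf_mem hIne hbb
  have hbI : b ∈ I := hI.csSup_mem hIne hba
  have hIab : I = Icc a b := by
    apply Subset.antisymm
    · intro x hx
      exact ⟨csInf_le hbb hx, le_csSup hba hx⟩
    · exact hc.out haI hbI
  have hab : 2 * h ≤ b - a := by
    have h1 := csInf_le hbb hl0
    have h2 := le_csSup hba hr0
    linarith
  have hS : star1 I h = Icc (a - h) (b + h) := by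
    ext x
    constructor
    · rintro ⟨l, hl, r, hr, -, h2, h3⟩
      have h4 := csInf_le hbb hl
      have h5 := le_csSup hba hr
      exact ⟨by linarith, by linarith⟩
    · rintro ⟨h2, h3⟩
      exact ⟨a, haI, b, hbI, hab, h2, h3⟩
  have haρ := (hsub haI).1
  have haρ' := (hsub haI).2
  have hbρ := (hsub hbI).2
  have hbρ' := (hsub hbI).1
  have hρ : 0 ≤ ρ := by linarith
  rw [hS, hIab]
  by_cases c1 : -ρ ≤ a - h
  · -- left end not truncated
    have hkeep : Ico (a - h) a ⊆ (Icc (a - h) (b + h) ∩ Icc (-ρ) ρ) \ Icc a b := by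
      rintro x ⟨h1, h2⟩
      refine ⟨⟨⟨h1, by linarith⟩, ⟨by linarith, by linarith⟩⟩, fun h3 => ?_⟩
      exact absurd h3.1 (not_le.mpr h2)
    have hcov : Icc (a - h) (b + h) \ Icc a b ⊆
        ((Icc (a - h) (b + h) ∩ Icc (-ρ) ρ) \ Icc a b) ∪ Ioc ρ (b + h) := by
      rintro x ⟨h1, h2⟩
      by_cases h3 : x ≤ ρ
      · left
        exact ⟨⟨h1, ⟨by linarith [h1.1], h3⟩⟩, h2⟩
      · right
        exact ⟨not_le.mp h3, h1.2⟩
    have hcmp : gaussianReal 0 1 (Ioc ρ (b + h)) ≤ gaussianReal 0 1 (Ico (a - h) a) := by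
      apply gauss_compare measurableSet_Ioc measurableSet_Ico hρ
      · intro x hx
        exact le_trans hx.1.le (le_abs_self x)
      · intro x hx
        rw [abs_le]
        exact ⟨by linarith [hx.1], by linarith [hx.2]⟩
      · rw [Real.volume_Ioc, Real.volume_Ico]
        apply ENNReal.ofReal_le_ofReal
        linarith
    calc gaussianReal 0 1 (Icc (a - h) (b + h) \ Icc a b)
        ≤ gaussianReal 0 1 ((Icc (a - h) (b + h) ∩ Icc (-ρ) ρ) \ Icc a b)
          + gaussianReal 0 1 (Ioc ρ (b + h)) := (measure_mono hcov).trans (measure_union_le _ _)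
      _ ≤ gaussianReal 0 1 ((Icc (a - h) (b + h) ∩ Icc (-ρ) ρ) \ Icc a b)
          + gaussianReal 0 1 ((Icc (a - h) (b + h) ∩ Icc (-ρ) ρ) \ Icc a b) :=
          add_le_add le_rfl (hcmp.trans (measure_mono hkeep))
      _ = _ := by rw [two_mul]
  by_cases c2 : b + h ≤ ρ
  · have hkeep : Ioc b (b + h) ⊆ (Icc (a - h) (b + h) ∩ Icc (-ρ) ρ) \ Icc a b := by
      rintro x ⟨h1, h2⟩
      refine ⟨⟨⟨by linarith, h2⟩, ⟨by linarith, by linarith⟩⟩, fun h3 => ?_⟩
      exact absurd h3.2 (not_le.mpr h1)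
    have hcov : Icc (a - h) (b + h) \ Icc a b ⊆
        ((Icc (a - h) (b + h) ∩ Icc (-ρ) ρ) \ Icc a b) ∪ Ico (a - h) (-ρ) := by
      rintro x ⟨h1, h2⟩
      by_cases h3 : -ρ ≤ x
      · left
        exact ⟨⟨h1, ⟨h3, by linarith [h1.2]⟩⟩, h2⟩
      · right
        exact ⟨h1.1, not_le.mp h3⟩
    have hcmp : gaussianReal 0 1 (Ico (a - h) (-ρ)) ≤ gaussianReal 0 1 (Ioc b (b + h)) := by
      apply gauss_compare measurableSet_Ico measurableSet_Ioc hρ
      · intro x hx
        have := hx.2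
        have h4 := neg_le_abs x
        linarith
      · intro x hx
        rw [abs_le]
        exact ⟨by linarith [hx.1], by linarith [hx.2]⟩
      · rw [Real.volume_Ioc, Real.volume_Ico]
        apply ENNReal.ofReal_le_ofReal
        linarith
    calc gaussianReal 0 1 (Icc (a - h) (b + h) \ Icc a b)
        ≤ gaussianReal 0 1 ((Icc (a - h) (b + h) ∩ Icc (-ρ) ρ) \ Icc a b)
          + gaussianReal 0 1 (Ico (a - h) (-ρ)) := (measure_mono hcov).trans (measure_union_le _ _)
      _ ≤ gaussianReal 0 1 ((Icc (a - h) (b + h) ∩ Icc (-ρ) ρ) \ Icc a b)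
          + gaussianReal 0 1 ((Icc (a - h) (b + h) ∩ Icc (-ρ) ρ) \ Icc a b) :=
          add_le_add le_rfl (hcmp.trans (measure_mono hkeep))
      _ = _ := by rw [two_mul]
  -- both truncated: contradiction
  exfalso
  push Not at c1 c2
  refine absurd hA (not_lt.mpr ?_)
  have hmax : ∀ x ∈ Iᶜ, max (ρ - h) 0 ≤ |x| := by
    intro x hx
    apply max_le _ (abs_nonneg x)
    by_contra hcon
    push Not at hcon
    have h5 := abs_lt.mp hcon
    apply hx
    rw [hIab]
    exact ⟨by linarith [h5.1], by linarith [h5.2]⟩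
  exact tail_two (le_max_right _ _) hmax

end oned

section line

variable {E : Type*} [NormedAddCommGroup E] [InnerProductSpace ℝ E] [FiniteDimensional ℝ E]
  [MeasurableSpace E] [BorelSpace E]

/-- law of one coordinate -/
lemma map_inner_std {e : E} (he : ‖e‖ = 1) :
    (stdGaussian E).map (fun z => ⟪e, z⟫) = gaussianReal 0 1 := by
  have hm : Measurable fun z : E => ⟪e, z⟫ := by fun_prop
  haveI : IsProbabilityMeasure ((stdGaussian E).map (fun z : E => ⟪e, z⟫)) :=
    Measure.isProbabilityMeasure_map hm.aemeasurable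
  apply Measure.ext_of_charFun
  funext t
  rw [charFun_apply_real, integral_map hm.aemeasurable (by fun_prop), charFun_gaussianReal]
  have h1 : ∀ z : E, Complex.exp (t * ((⟪e, z⟫ : ℝ) : ℂ) * Complex.I)
      = Complex.exp (((⟪z, t • e⟫ : ℝ) : ℂ) * Complex.I) := by
    intro z
    congr 1
    rw [inner_smul_right, real_inner_comm]
    push_cast
    ring
  simp_rw [h1]
  rw [← charFun_apply, charFun_stdGaussian, norm_smul, he, mul_one, Real.norm_eq_abs]
  congr 1
  have h2 : ((|t| : ℝ) : ℂ) ^ 2 = (t : ℂ) ^ 2 := by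
    norm_cast
    exact sq_abs t
  rw [h2]
  push_cast
  ring

/-- the hyperplane orthogonal to `v` -/
noncomputable def Hp (v : E) : Submodule ℝ E := (ℝ ∙ v)ᗮ

lemma Hp_proj {v : E} (z : E) :
    z - (Hp v).starProjection z = ⟪(‖v‖⁻¹ : ℝ) • v, z⟫ • ((‖v‖⁻¹ : ℝ) • v) := by
  unfold Hp
  rw [Submodule.starProjection_orthogonal_val, sub_sub_cancel, Submodule.starProjection_singleton,
    inner_smul_left, smul_smul]
  congr 1
  simp only [RCLike.ofReal_real_eq_id, id, conj_trivial]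
  rw [div_eq_mul_inv, pow_two, mul_inv]
  ring

lemma fib_line {v : E} (hv : v ≠ 0) {S : Set E} (hS : MeasurableSet S) (x : E) :
    fib (Hp v) (S.indicator 1) x
      = gaussianReal 0 1 {r : ℝ | (Hp v).starProjection x + r • ((‖v‖⁻¹ : ℝ) • v) ∈ S} := by
  set e : E := (‖v‖⁻¹ : ℝ) • v with he
  have he1 : ‖e‖ = 1 := by
    rw [he, norm_smul, norm_inv, norm_norm, inv_mul_cancel₀ (norm_ne_zero_iff.mpr hv)]
  have hm : Measurable fun z : E => ⟪e, z⟫ := by fun_prop
  have hS2 : MeasurableSet {r : ℝ | (Hp v).starProjection x + r • e ∈ S} := by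
    have : Measurable fun r : ℝ => (Hp v).starProjection x + r • e := by fun_prop
    exact this hS
  rw [fib_indicator _ hS, ← map_inner_std he1, Measure.map_apply hm hS2]
  congr 1
  ext z
  simp only [mem_setOf_eq, mem_preimage]
  rw [Hp_proj z, ← he]

/-- the line through `p` with direction `e` meets `star K v` in a one dimensional star -/
lemma line_star {K : Set E} {v : E} (hv : v ≠ 0) (p : E) :
    {r : ℝ | p + r • ((‖v‖⁻¹ : ℝ) • v) ∈ star K v}
      = star1 {r : ℝ | p + r • ((‖v‖⁻¹ : ℝ) • v) ∈ K} ‖v‖ := by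
  have hn : 0 < ‖v‖ := norm_pos_iff.mpr hv
  set e : E := (‖v‖⁻¹ : ℝ) • v with he
  have hve : v = ‖v‖ • e := by
    rw [he, smul_smul, mul_inv_cancel₀ hn.ne', one_smul]
  have hadd : ∀ r a : ℝ, p + r • e + a • v = p + (r + a * ‖v‖) • e := by
    intro r a
    rw [add_smul, mul_smul, ← hve, add_assoc]
  ext r
  simp only [H493.star, star1, mem_setOf_eq]
  constructor
  · rintro ⟨a, b, h1, h2, h3, h4, h5⟩
    rw [hadd] at h1 h2
    refine ⟨_, h1, _, h2, ?_, ?_, ?_⟩ <;> nlinarith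
  · rintro ⟨l, h1, r', h2, h3, h4, h5⟩
    refine ⟨(l - r) / ‖v‖, (r' - r) / ‖v‖, ?_, ?_, ?_, ?_, ?_⟩
    · rw [hadd, div_mul_cancel₀ _ hn.ne', add_sub_cancel]
      exact h1
    · rw [hadd, div_mul_cancel₀ _ hn.ne', add_sub_cancel]
      exact h2
    · rw [← sub_div, le_div_iff₀ hn]
      linarith
    · rw [div_le_iff₀ hn]
      linarith
    · rw [le_div_iff₀ hn]
      linarith

lemma norm_line {v : E} (hv : v ≠ 0) (x : E) (r : ℝ) :
    ‖(Hp v).starProjection x + r • ((‖v‖⁻¹ : ℝ) • v)‖ ^ 2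
      = ‖(Hp v).starProjection x‖ ^ 2 + r ^ 2 := by
  set e : E := (‖v‖⁻¹ : ℝ) • v with he
  have he1 : ‖e‖ = 1 := by
    rw [he, norm_smul, norm_inv, norm_norm, inv_mul_cancel₀ (norm_ne_zero_iff.mpr hv)]
  have h0 : ⟪(Hp v).starProjection x, e⟫ = 0 := by
    have h1 : (Hp v).starProjection x ∈ Hp v := Submodule.starProjection_apply_mem _ _
    have h2 : ⟪v, (Hp v).starProjection x⟫ = 0 := by
      unfold Hp at h1
      exact Submodule.mem_orthogonal_singleton_iff_inner_right.mp h1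
    rw [he, inner_smul_right, real_inner_comm, h2, mul_zero]
  rw [norm_add_sq_real, inner_smul_right, h0, norm_smul, he1]
  simp

lemma exp_aux {ρ h p Lam : ℝ} (hh0 : 0 ≤ h) (hh : h ≤ 1 / 10) (hp0 : 0 ≤ p) (hp : p ≤ 1 / 4)
    (hL : 1 ≤ Lam) (hρ : 0 ≤ ρ) :
    2 * Real.exp (-(max (ρ - h) 0) ^ 2 / 2) < Real.exp (-(p * ρ ^ 2 - Lam)) := by
  have h2 : 2 * Real.exp (-(max (ρ - h) 0) ^ 2 / 2)
      = Real.exp (Real.log 2 + -(max (ρ - h) 0) ^ 2 / 2) := by
    rw [Real.exp_add, Real.exp_log (by norm_num)]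
  rw [h2]
  apply Real.exp_lt_exp.mpr
  have hl : Real.log 2 < 0.6931471808 := Real.log_two_lt_d9
  have hsq : 0 ≤ ρ ^ 2 := sq_nonneg ρ
  have h3 : p * ρ ^ 2 ≤ (1 / 4) * ρ ^ 2 := mul_le_mul_of_nonneg_right hp hsq
  rcases le_total (ρ - h) 0 with hc | hc
  · rw [max_eq_right hc]
    have : ρ ^ 2 ≤ 1 / 100 := by nlinarith
    norm_num
    linarith
  · rw [max_eq_left hc]
    nlinarith [sq_nonneg (ρ - 2 * h), sq_nonneg (ρ - 1 / 5)]

/-- **block RIM, one line.** -/
theorem rim_line {K : Set E} (hK : IsClosed K) (hKc : Convex ℝ K) {R : ℝ}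
    (hKR : K ⊆ Metric.closedBall 0 R) {v : E} (hv : 0 < ‖v‖) (hv1 : ‖v‖ ≤ 1 / 10)
    {p Lam : ℝ} (hp0 : 0 ≤ p) (hp : p ≤ 1 / 4) (hL : 1 ≤ Lam) (x : E)
    (hSm : MeasurableSet (star K v))
    (hA : ENNReal.ofReal (Real.exp (-(p * (R ^ 2 - ‖(Hp v).starProjection x‖ ^ 2) - Lam)))
      ≤ max (fib (Hp v) (Kᶜ.indicator 1) x)
        (fib (Hp v) ((star K v ∩ Metric.closedBall 0 R)ᶜ.indicator 1) x)) :
    fib (Hp v) ((star K v \ K).indicator 1) x
      ≤ 2 * fib (Hp v) (((star K v ∩ Metric.closedBall 0 R) \ K).indicator 1) x := by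
  have hv0 : v ≠ 0 := norm_pos_iff.mp hv
  have hKm := hK.measurableSet
  have hBm : MeasurableSet (Metric.closedBall (0 : E) R) := Metric.isClosed_closedBall.measurableSet
  rw [fib_line hv0 hKm.compl, fib_line hv0 (hSm.inter hBm).compl] at hA
  rw [fib_line hv0 (hSm.diff hKm), fib_line hv0 ((hSm.inter hBm).diff hKm)]
  set e : E := (‖v‖⁻¹ : ℝ) • v with he
  set q : E := (Hp v).starProjection x with hq
  set I : Set ℝ := {r : ℝ | q + r • e ∈ K} with hI
  have hcont : Continuous fun r : ℝ => q + r • e := by fun_prop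
  have hIc : IsClosed I := hK.preimage hcont
  have hIo : I.OrdConnected := by
    have : Convex ℝ I := by
      intro a ha b hb s t hs ht hst
      have h1 := hKc ha hb hs ht hst
      have h2 : s • (q + a • e) + t • (q + b • e) = q + (s • a + t • b) • e := by
        simp only [smul_add, smul_eq_mul, add_smul, mul_smul]
        have : q = s • q + t • q := by rw [← add_smul, hst, one_smul]
        nth_rewrite 3 [this]
        abel
      rw [h2] at h1
      exact h1
    exact this.ordConnected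
  have hnl : ∀ r : ℝ, ‖q + r • e‖ ^ 2 = ‖q‖ ^ 2 + r ^ 2 := fun r => norm_line hv0 x r
  by_cases hIe : I = ∅
  · -- empty line
    have h1 : {r : ℝ | q + r • e ∈ star K v \ K} = ∅ := by
      rw [eq_empty_iff_forall_notMem]
      intro r hr
      have h2 : r ∈ {r : ℝ | q + r • e ∈ star K v} := hr.1
      rw [line_star hv0 q, ← he, ← hI, hIe] at h2
      obtain ⟨l, hl, -⟩ := h2
      exact hl
    rw [h1]
    simp
  obtain ⟨r0, hr0⟩ := nonempty_iff_ne_empty.mpr hIe
  have hR0 : ‖q + r0 • e‖ ≤ R := by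
    have := hKR hr0
    rwa [mem_closedBall_zero_iff] at this
  have hRnn : 0 ≤ R := (norm_nonneg _).trans hR0
  have hqR : 0 ≤ R ^ 2 - ‖q‖ ^ 2 := by
    have h1 := hnl r0
    have h2 : ‖q + r0 • e‖ ^ 2 ≤ R ^ 2 := pow_le_pow_left₀ (norm_nonneg _) hR0 2
    nlinarith [sq_nonneg r0]
  set ρ := Real.sqrt (R ^ 2 - ‖q‖ ^ 2) with hρ
  have hρ0 : 0 ≤ ρ := Real.sqrt_nonneg _
  have hρ2 : ρ ^ 2 = R ^ 2 - ‖q‖ ^ 2 := Real.sq_sqrt hqR
  have hball : {r : ℝ | q + r • e ∈ Metric.closedBall (0 : E) R} = Icc (-ρ) ρ := by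
    ext r
    rw [mem_setOf_eq, mem_closedBall_zero_iff, mem_Icc, ← abs_le]
    rw [← sq_le_sq₀ (norm_nonneg _) hRnn, ← sq_le_sq₀ (abs_nonneg r) hρ0, hnl, hρ2, sq_abs]
    constructor <;> intro h <;> linarith
  have hIsub : I ⊆ Icc (-ρ) ρ := by
    rw [← hball]
    intro r hr
    exact hKR hr
  have hstar : {r : ℝ | q + r • e ∈ star K v} = star1 I ‖v‖ := line_star hv0 q
  have e1 : {r : ℝ | q + r • e ∈ star K v \ K} = star1 I ‖v‖ \ I := by
    rw [← hstar]
    rfl
  have e2 : {r : ℝ | q + r • e ∈ (star K v ∩ Metric.closedBall 0 R) \ K}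
      = (star1 I ‖v‖ ∩ Icc (-ρ) ρ) \ I := by
    rw [← hstar, ← hball]
    rfl
  have e3 : {r : ℝ | q + r • e ∈ Kᶜ} = Iᶜ := rfl
  have e4 : {r : ℝ | q + r • e ∈ (star K v ∩ Metric.closedBall 0 R)ᶜ}
      = (star1 I ‖v‖ ∩ Icc (-ρ) ρ)ᶜ := by
    rw [← hstar, ← hball]
    rfl
  rw [e1, e2]
  rw [e3, e4] at hA
  by_cases hne : (star1 I ‖v‖).Nonempty
  swap
  · rw [not_nonempty_iff_eq_empty] at hne
    rw [hne]
    simp
  have hIs : I ⊆ star1 I ‖v‖ ∩ Icc (-ρ) ρ := by
    obtain ⟨y0, l0, hl0, s0, hs0, h0, -, -⟩ := hne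
    intro y hy
    refine ⟨?_, hIsub hy⟩
    have hmn : min l0 y ∈ I := by
      rcases min_choice l0 y with h | h <;> rw [h] <;> assumption
    have hmx : max s0 y ∈ I := by
      rcases max_choice s0 y with h | h <;> rw [h] <;> assumption
    refine ⟨min l0 y, hmn, max s0 y, hmx, ?_, ?_, ?_⟩
    · linarith [min_le_left l0 y, le_max_left s0 y]
    · linarith [min_le_right l0 y]
    · linarith [le_max_right s0 y]
  have hA' : ENNReal.ofReal (Real.exp (-(p * (R ^ 2 - ‖q‖ ^ 2) - Lam)))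
      ≤ gaussianReal 0 1 Iᶜ := by
    refine hA.trans (max_le le_rfl (measure_mono ?_))
    exact compl_subset_compl.mpr hIs
  apply rim1 hIc hIo hv hIsub
  refine lt_of_lt_of_le ?_ hA'
  rw [← hρ2]
  apply (ENNReal.ofReal_lt_ofReal_iff (Real.exp_pos _)).mpr
  exact exp_aux hv.le hv1 hp0 hp hL hρ0

end line

section compact

variable {E : Type*} [NormedAddCommGroup E] [InnerProductSpace ℝ E]

/-- the star of a compact set is compact -/
theorem isCompact_star {K : Set E} (hK : IsCompact K) {v : E} (hv : v ≠ 0) :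
    IsCompact (star K v) := by
  have hn : 0 < ‖v‖ := norm_pos_iff.mpr hv
  obtain ⟨R, hR⟩ := hK.isBounded.exists_norm_le
  set s0 := 2 * R / ‖v‖ with hs0
  set T : Set (E × ℝ × ℝ) := (K ×ˢ (Icc 2 s0 ×ˢ Icc (-1 - s0) 1)) ∩
    {q | q.1 + q.2.1 • v ∈ K ∧ -1 ≤ q.2.2 + q.2.1} with hT
  have hTc : IsCompact T := by
    apply (hK.prod (isCompact_Icc.prod isCompact_Icc)).inter_right
    apply IsClosed.inter
    · have hc : Continuous fun q : E × ℝ × ℝ => q.1 + q.2.1 • v := by fun_prop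
      exact hK.isClosed.preimage hc
    · have hc : Continuous fun q : E × ℝ × ℝ => q.2.2 + q.2.1 := by fun_prop
      exact isClosed_le continuous_const hc
  have hst : star K v = (fun q : E × ℝ × ℝ => q.1 - q.2.2 • v) '' T := by
    ext x
    constructor
    · rintro ⟨a, b, h1, h2, h3, h4, h5⟩
      have hsb : b - a ≤ s0 := by
        rw [hs0, le_div_iff₀ hn]
        have e1 : (b - a) • v = (x + b • v) - (x + a • v) := by
          rw [sub_smul]; abel
        have e2 : ‖(b - a) • v‖ ≤ 2 * R := by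
          rw [e1]
          calc _ ≤ ‖x + b • v‖ + ‖x + a • v‖ := norm_sub_le _ _
            _ ≤ R + R := add_le_add (hR _ h2) (hR _ h1)
            _ = 2 * R := by ring
        rw [norm_smul, Real.norm_eq_abs, abs_of_nonneg (by linarith)] at e2
        exact e2
      refine ⟨(x + a • v, b - a, a), ⟨⟨h1, ⟨h3, hsb⟩, ⟨by simp only; linarith, h4⟩⟩, ?_, ?_⟩, ?_⟩
      · have e1 : x + a • v + (b - a) • v = x + b • v := by
          rw [sub_smul]; abel
        simp only
        rw [e1]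
        exact h2
      · simp only
        linarith
      · simp
    · rintro ⟨⟨y, s, a⟩, ⟨⟨h1, ⟨h2, h3⟩, ⟨h4, h5⟩⟩, h6, h7⟩, rfl⟩
      simp only at h1 h2 h3 h4 h5 h6 h7 ⊢
      refine ⟨a, a + s, ?_, ?_, by linarith, h5, h7⟩
      · simpa using h1
      · have e1 : y - a • v + (a + s) • v = y + s • v := by
          rw [add_smul]; abel
        rw [e1]
        exact h6
  rw [hst]
  exact hTc.image (by fun_prop)

end compact

section rim

variable {E : Type*} [NormedAddCommGroup E] [InnerProductSpace ℝ E] [FiniteDimensional ℝ E]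
  [MeasurableSpace E] [BorelSpace E]

lemma measurableSet_star {K : Set E} (hK : IsClosed K) {R : ℝ}
    (hKR : K ⊆ Metric.closedBall 0 R) {v : E} (hv : v ≠ 0) : MeasurableSet (star K v) := by
  have : IsCompact K := Metric.isCompact_of_isClosed_isBounded hK
    (Metric.isBounded_closedBall.subset hKR)
  exact (isCompact_star this hv).isClosed.measurableSet

/-- the line condition of block RIM: on the line of `x` one of the two bodies has complement of
conditional measure at least `exp (-(p (R^2 - |label|^2) - Lam))` -/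
def OnLine (K : Set E) (v : E) (R p Lam : ℝ) (x : E) : Prop :=
  ENNReal.ofReal (Real.exp (-(p * (R ^ 2 - ‖(Hp v).starProjection x‖ ^ 2) - Lam)))
      ≤ max (fib (Hp v) (Kᶜ.indicator 1) x)
        (fib (Hp v) ((star K v ∩ Metric.closedBall 0 R)ᶜ.indicator 1) x)

/-- **block RIM, averaged over an outer label** -/
theorem rim_fib {K : Set E} (hK : IsClosed K) (hKc : Convex ℝ K) {R : ℝ}
    (hKR : K ⊆ Metric.closedBall 0 R) {v : E} (hv : 0 < ‖v‖) (hv1 : ‖v‖ ≤ 1 / 10)
    {p Lam : ℝ} (hp0 : 0 ≤ p) (hp : p ≤ 1 / 4) (hL : 1 ≤ Lam)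
    {W0 : Submodule ℝ E} (hW : W0 ≤ Hp v) {Om : E → ℝ≥0∞} (hOm : Inv (Hp v) Om)
    (hOmm : Measurable Om) (hA : ∀ x, Om x ≠ 0 → OnLine K v R p Lam x) (x : E) :
    fib W0 (fun y => Om y * (star K v \ K).indicator 1 y) x
      ≤ 2 * fib W0 (fun y => Om y *
        ((star K v ∩ Metric.closedBall 0 R) \ K).indicator 1 y) x := by
  have hv0 : v ≠ 0 := norm_pos_iff.mp hv
  have hSm := measurableSet_star hK hKR hv0
  have hKm := hK.measurableSet
  have hBm : MeasurableSet (Metric.closedBall (0 : E) R) := Metric.isClosed_closedBall.measurableSet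
  have m1 : Measurable ((star K v \ K).indicator (1 : E → ℝ≥0∞)) :=
    measurable_one.indicator (hSm.diff hKm)
  have m2 : Measurable (((star K v ∩ Metric.closedBall 0 R) \ K).indicator (1 : E → ℝ≥0∞)) :=
    measurable_one.indicator ((hSm.inter hBm).diff hKm)
  have hm1 : Measurable fun y => Om y * (star K v \ K).indicator (1 : E → ℝ≥0∞) y := hOmm.mul m1
  have hm2 : Measurable fun y => Om y *
      ((star K v ∩ Metric.closedBall 0 R) \ K).indicator (1 : E → ℝ≥0∞) y := hOmm.mul m2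
  rw [← fib_tower hW hm1, ← fib_tower hW hm2]
  have hfm : Measurable (fib (Hp v) (fun y => Om y *
        ((star K v ∩ Metric.closedBall 0 R) \ K).indicator 1 y)) :=
    measurable_fib hm2
  have e3 : 2 * fib W0 (fib (Hp v) (fun y => Om y *
        ((star K v ∩ Metric.closedBall 0 R) \ K).indicator 1 y)) x
      = fib W0 (fun y => 2 * fib (Hp v) (fun y => Om y *
        ((star K v ∩ Metric.closedBall 0 R) \ K).indicator 1 y) y) x :=
    (fib_mul (inv_const W0 2) hfm x).symm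
  refine le_trans ?_ (le_of_eq e3.symm)
  apply fib_mono
  intro y
  rw [fib_mul hOm m1, fib_mul hOm m2]
  by_cases h0 : Om y = 0
  · simp [h0]
  · rw [← mul_assoc, mul_comm 2 (Om y), mul_assoc]
    exact mul_le_mul' le_rfl (rim_line hK hKc hKR hv hv1 hp0 hp hL y hSm (hA y h0))

/-- **block RIM, integrated** -/
theorem rim_int {K : Set E} (hK : IsClosed K) (hKc : Convex ℝ K) {R : ℝ}
    (hKR : K ⊆ Metric.closedBall 0 R) {v : E} (hv : 0 < ‖v‖) (hv1 : ‖v‖ ≤ 1 / 10)
    {p Lam : ℝ} (hp0 : 0 ≤ p) (hp : p ≤ 1 / 4) (hL : 1 ≤ Lam)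
    {Om : E → ℝ≥0∞} (hOm : Inv (Hp v) Om)
    (hOmm : Measurable Om) (hA : ∀ x, Om x ≠ 0 → OnLine K v R p Lam x) :
    ∫⁻ y, Om y * (star K v \ K).indicator 1 y ∂stdGaussian E
      ≤ 2 * ∫⁻ y, Om y *
        ((star K v ∩ Metric.closedBall 0 R) \ K).indicator 1 y ∂stdGaussian E := by
  have h := rim_fib hK hKc hKR hv hv1 hp0 hp hL (bot_le : (⊥ : Submodule ℝ E) ≤ Hp v) hOm hOmm hA 0
  rwa [fib_bot, fib_bot] at h

/-- the loss is not changed by the cut -/
lemma loss_cut {K : Set E} {R : ℝ} (hKR : K ⊆ Metric.closedBall 0 R) (v : E) :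
    K \ (star K v ∩ Metric.closedBall 0 R) = K \ star K v := by
  ext x
  simp only [mem_diff, mem_inter_iff, not_and_or]
  constructor
  · rintro ⟨h1, h2⟩
    exact ⟨h1, h2.resolve_right (fun h => h (hKR h1))⟩
  · rintro ⟨h1, h2⟩
    exact ⟨h1, Or.inl h2⟩

/-- **star step followed by the cut with the ball**: an estimate `loss ≤ c * gain` without the
cut gives `loss ≤ 2 c * gain` with the cut. -/
theorem cut_fib {K : Set E} (hK : IsClosed K) (hKc : Convex ℝ K) {R : ℝ}
    (hKR : K ⊆ Metric.closedBall 0 R) {v : E} (hv : 0 < ‖v‖) (hv1 : ‖v‖ ≤ 1 / 10)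
    {p Lam : ℝ} (hp0 : 0 ≤ p) (hp : p ≤ 1 / 4) (hL : 1 ≤ Lam)
    {W0 : Submodule ℝ E} (hW : W0 ≤ Hp v) {Om : E → ℝ≥0∞} (hOm : Inv (Hp v) Om)
    (hOmm : Measurable Om) (hA : ∀ x, Om x ≠ 0 → OnLine K v R p Lam x) (x : E) {c : ℝ≥0∞}
    (hstar : fib W0 (fun y => Om y * (K \ star K v).indicator 1 y) x
      ≤ c * fib W0 (fun y => Om y * (star K v \ K).indicator 1 y) x) :
    fib W0 (fun y => Om y * (K \ (star K v ∩ Metric.closedBall 0 R)).indicator 1 y) x
      ≤ 2 * c * fib W0 (fun y => Om y *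
        ((star K v ∩ Metric.closedBall 0 R) \ K).indicator 1 y) x := by
  rw [loss_cut hKR]
  refine hstar.trans ?_
  rw [mul_comm 2 c, mul_assoc]
  exact mul_le_mul' le_rfl (rim_fib hK hKc hKR hv hv1 hp0 hp hL hW hOm hOmm hA x)

end rim

end Vale.Agent.P262.H59
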