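import Vale.Agent.P262.H59.StarGp2
import Vale.Agent.P262.M2.Cls

/-!
# P262, milestone 2: words, ends and rim of the field tree of `M2.Sys` at a star move
-/

set_option linter.all false

open MeasureTheory ProbabilityTheory Set Module
open scoped ENNReal RealInnerProductSpace
open Vale.Agent.P262.H395 (fib mix Inv Fixes)
open Vale.Agent.P262.H118 (wrd wd)
open Vale.Agent.P262.H493 (star)
open Vale.Agent.P262.H654 (fr InvR Bd phi)
open Vale.Agent.P262.H847 (UI)
open Vale.Agent.P262.H852 (sl)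
open Vale.Agent.P262.H44 (StarAt sf sf_UI)
open Vale.Agent.P262.H752 (ci ci_UI chR)
open Vale.Agent.P262.H713 (FT Pa Wd sft ch LabF im im_span)

namespace Vale.Agent.P262.H59

variable {E : Type*} [NormedAddCommGroup E] [InnerProductSpace ℝ E] [FiniteDimensional ℝ E]
  {ι : Type*}

lemma im_Hp (R : E ≃ₗᵢ[ℝ] E) (v : E) : im R (Hp v) = Hp (R v) := im_span R v

lemma im_inj' {R : E ≃ₗᵢ[ℝ] E} {V W : Submodule ℝ E} (h : im R V = im R W) : V = W := by
  have h1 : Function.Injective (R : E → E) := R.injective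
  ext x
  have h2 : R x ∈ im R V ↔ R x ∈ im R W := by rw [h]
  have h3 : ∀ U : Submodule ℝ E, R x ∈ im R U ↔ x ∈ U := fun U => by
    unfold im
    rw [Submodule.mem_map]
    constructor
    · rintro ⟨y, hy, he⟩
      rwa [← h1 he]
    · exact fun hx => ⟨x, hx, rfl⟩
  rwa [h3, h3] at h2

lemma last_mp {v : E} {R : E ≃ₗᵢ[ℝ] E} : ∀ {t : FT E ι} {W : Submodule ℝ E}
    (_ : FT.Last (fun V _ => V = Hp v) W t), FT.Last (fun V _ => V = Hp (R v)) (im R W) (FT.mp R t)
  | FT.leaf i, W, h => by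
    have h' : W = Hp v := h
    show im R W = Hp (R v)
    rw [h', im_Hp]
  | FT.node W' c Z cls T, W, h => fun k => last_mp (h k)

lemma norm_proj_Hp (R : E ≃ₗᵢ[ℝ] E) (v x : E) :
    ‖(Hp (R v)).starProjection x‖ = ‖(Hp v).starProjection (R.symm x)‖ := by
  have h := H395.starProjection_map_isometry R (Hp v) (R.symm x)
  rw [R.apply_symm_apply] at h
  rw [← im_Hp]
  have e : (im R (Hp v)).starProjection x = R ((Hp v).starProjection (R.symm x)) := h
  rw [e, R.norm_map]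

lemma rim_mp {v : E} {R' p Lam : ℝ} {R : E ≃ₗᵢ[ℝ] E} : ∀ {t : FT E ι}
    (_ : RimF v R' p Lam t), RimF (R v) R' p Lam (FT.mp R t)
  | FT.leaf i, h => trivial
  | FT.node W c Z cls T, h => by
    refine ⟨fun hW x hx => ?_, fun k => rim_mp (h.2 k)⟩
    rw [← im_Hp] at hW
    have h1 := h.1 (im_inj' hW) (R.symm x) hx
    rwa [← norm_proj_Hp] at h1

variable {Q : Pa E} {c : List ℕ → E → ℝ} {Z : List ℕ → Set E} {cls : List ℕ → E → ℕ}

/-- conditions on the arrays of a state for the ends: words, leaves, dimensions -/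
structure EndOK (Q : Pa E) (w : List ℕ → E) : Prop where
  wd : Wd Q w
  leaf : ∀ p, Q.lf p → Q.W p = Hp (w p)
  lf1 : ∀ p, finrank ℝ (Q.W p)ᗮ ≤ 1 → Q.lf p
  grow : ∀ k p, ¬ Q.lf p → finrank ℝ (Q.W (k :: p))ᗮ < finrank ℝ (Q.W p)ᗮ

theorem last_sft {w : List ℕ → E} (h : EndOK Q w) : ∀ (n : ℕ) (p : List ℕ)
    (_ : finrank ℝ (Q.W p)ᗮ ≤ n + 1) (W0 : Submodule ℝ E),
    FT.Last (fun V _ => V = Hp (w p)) W0 (sft Q c Z cls (n + 1) p) := by
  intro n
  induction n with
  | zero =>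
    intro p hp W0 k
    have hl := h.lf1 p hp
    simp only
    rw [if_pos hl]
    exact h.leaf p hl
  | succ n ih =>
    intro p hp W0 k
    simp only
    by_cases hl : Q.lf p
    · rw [if_pos hl]
      exact h.leaf p hl
    · rw [if_neg hl]
      have h1 := h.grow k p hl
      have h2 := last_mp (R := Q.P (k :: p)) (ih (k :: p) (by omega) (im (Q.P (k :: p)).symm (Q.W p)))
      rw [h.wd.eq] at h2
      have e : im (Q.P (k :: p)) (im (Q.P (k :: p)).symm (Q.W p)) = Q.W p := by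
        unfold im
        ext x
        simp only [Submodule.mem_map]
        constructor
        · rintro ⟨y, ⟨z, hz, rfl⟩, rfl⟩
          have : (Q.P (k :: p)) ((Q.P (k :: p)).symm z) = z := (Q.P (k :: p)).apply_symm_apply z
          change (Q.P (k :: p)) ((Q.P (k :: p)).symm z) ∈ Q.W p
          rwa [this]
        · intro hx
          exact ⟨(Q.P (k :: p)).symm x, ⟨x, hx, rfl⟩, (Q.P (k :: p)).apply_symm_apply x⟩
      rwa [e] at h2

theorem rim_sft {w : List ℕ → E} (h : Wd Q w) {R p Lam : ℝ}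
    (hr : ∀ q, Q.W q = Hp (w q) → ∀ x, x ∉ Z q →
      Real.exp (-(p * (R ^ 2 - ‖(Hp (w q)).starProjection x‖ ^ 2) - Lam)) ≤ c q x) :
    ∀ (n : ℕ) (q : List ℕ), RimF (w q) R p Lam (sft Q c Z cls n q) := by
  intro n
  induction n with
  | zero => intro q; trivial
  | succ n ih =>
    intro q
    refine ⟨hr q, fun k => ?_⟩
    simp only
    split_ifs
    · trivial
    · have := rim_mp (R := Q.P (k :: q)) (ih (k :: q))
      rwa [h.eq] at this

end Vale.Agent.P262.H59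

namespace Vale.Agent.P262.M2.Sys

open Vale.Agent.P262.H59

variable {E : Type*} [NormedAddCommGroup E] [InnerProductSpace ℝ E] [FiniteDimensional ℝ E]
  [MeasurableSpace E] [BorelSpace E] (S : Sys E)

/-- the vector of the step in the coordinates of the node `p` -/
noncomputable def wX (m : ℕ) (p : List ℕ) : E := wrd S.v (S.K.S p) (S.mv.tm m)

/-- path arrays of the state `m` -/
noncomputable def paX (m : ℕ) : Pa E := ⟨fun p => S.W p m, S.mv.Q m, fun p => S.Leaf p m⟩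

/-- cut-off constants of the field -/
noncomputable def cfX (m : ℕ) (p : List ℕ) (x : E) : ℝ := (S.M + 1) * (S.A p m x).toReal

lemma ok_X (m : ℕ) : (S.paX m).Ok := by
  refine ⟨fun c p => ?_, fun c p => S.W_le c p m⟩
  intro x hx
  exact S.mv.fix m c p x hx

lemma tm_lt_X {m : ℕ} (hm : m < S.mT) : S.mv.tm m < S.T :=
  S.mv.tm_lt_of_lt (by unfold mT at hm; omega)

lemma norm_wX {m : ℕ} (hm : m < S.mT) (p : List ℕ) : ‖S.wX m p‖ = S.δ := by
  unfold wX
  rw [H118.norm_wrd, S.hv _ (S.tm_lt_X hm)]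

lemma wX_ne {m : ℕ} (hm : m < S.mT) (p : List ℕ) : S.wX m p ≠ 0 := by
  rw [← norm_pos_iff, S.norm_wX hm]
  exact S.hδ

lemma wd_X {m : ℕ} (h : S.mv.IsStar m) (hm : m < S.mT) : Wd (S.paX m) (S.wX m) := by
  have ht := S.tm_lt_X hm
  refine ⟨fun c p => ?_, fun p => S.K.perp p ht⟩
  have e : S.mv.Q m = fun q => S.K.P q (S.mv.tm m) := by
    have h1 := S.mv.start _ ht
    unfold H118.El2.IsStar at h
    rw [← h] at h1
    exact h1
  have e1 : (S.paX m).P (c :: p) = S.K.P (c :: p) (S.mv.tm m) := by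
    show S.mv.Q m (c :: p) = _
    rw [e]
  rw [e1]
  unfold wX wrd
  rw [S.K.S_cons]
  show (S.K.P (c :: p) (S.mv.tm m)) ((S.K.P (c :: p) (S.mv.tm m)).symm
    ((S.K.S p (S.mv.tm m)).symm (S.v (S.mv.tm m)))) = _
  rw [LinearIsometryEquiv.apply_symm_apply]

lemma endOK_X {m : ℕ} (h : S.mv.IsStar m) (hm : m < S.mT) : EndOK (S.paX m) (S.wX m) := by
  have ht := S.tm_lt_X hm
  have hw := S.wd_X h hm
  refine ⟨hw, fun p hl => ?_, fun p hp => hp, fun k p hl => ?_⟩
  · -- a line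
    have h1 : S.wX m p ∈ (S.W p m)ᗮ := hw.perp p
    have h2 : Submodule.span ℝ {S.wX m p} ≤ (S.W p m)ᗮ := by
      rw [Submodule.span_singleton_le_iff_mem]; exact h1
    have h3 : finrank ℝ (S.W p m)ᗮ ≤ 1 := hl
    have h4 : finrank ℝ (Submodule.span ℝ {S.wX m p}) = 1 := finrank_span_singleton (S.wX_ne hm p)
    have h5 : Submodule.span ℝ {S.wX m p} = (S.W p m)ᗮ :=
      Submodule.eq_of_le_of_finrank_le h2 (by omega)
    show S.W p m = (Submodule.span ℝ {S.wX m p})ᗮ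
    rw [h5, Submodule.orthogonal_orthogonal]
  · have h1 : 2 ≤ finrank ℝ (S.K.W p (S.mv.tm m))ᗮ := by
      by_contra hcon
      exact hl (show finrank ℝ (S.W p m)ᗮ ≤ 1 by unfold W; omega)
    have h2 := (S.K.dim_child (c := k) ht h1).1
    have h3 := S.K.dim_perp p (S.mv.tm m)
    have h4 := S.K.dim_perp (k :: p) (S.mv.tm m)
    show finrank ℝ (S.K.W (k :: p) (S.mv.tm m))ᗮ < finrank ℝ (S.K.W p (S.mv.tm m))ᗮ
    omega

/-- the arrays do not change at active moves (the isometries at stars) -/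
lemma paX_succ {m : ℕ} (h : S.mv.IsStar m) : S.paX (m + 1) = S.paX m := by
  have h1 : ∀ p, S.W p (m + 1) = S.W p m := S.W_succ_active (Or.inl h)
  have h2 : S.mv.Q (m + 1) = S.mv.Q m := by
    have h3 := S.mv.star (S.mv.tm m)
    unfold H118.El2.IsStar at h
    rwa [← h] at h3
  have h4 : ∀ p, S.Leaf p (m + 1) = S.Leaf p m := fun p => by
    show (finrank ℝ (S.W p (m + 1))ᗮ ≤ 1) = (finrank ℝ (S.W p m)ᗮ ≤ 1)
    rw [h1 p]
  unfold paX
  simp only [h1, h2, h4]

lemma A_succ_X {m : ℕ} (h : S.mv.IsStar m ∨ S.mv.IsRot m) (hm : m < S.mT) (p : List ℕ) :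
    S.A p (m + 1) = S.A p m := by
  have ht := S.tm_lt_X hm
  exact (Same.active (S.K.zero_mem_nw p) h ht).A subset_rfl ht

lemma cfX_succ {m : ℕ} (h : S.mv.IsStar m ∨ S.mv.IsRot m) (hm : m < S.mT) :
    S.cfX (m + 1) = S.cfX m := by
  unfold cfX
  funext p x
  rw [S.A_succ_X h hm]

lemma Z_succ_X {m : ℕ} (h : S.mv.IsStar m ∨ S.mv.IsRot m) (hm : m < S.mT) (p : List ℕ) :
    S.Z p (m + 1) = S.Z p m := by
  have ht := S.tm_lt_X hm
  exact (Same.active (S.K.zero_mem_nw p) h ht).Z subset_rfl ht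

lemma kl_succ_X {m : ℕ} (h : S.mv.IsStar m ∨ S.mv.IsRot m) (hm : m < S.mT) (p : List ℕ) :
    S.kl p (m + 1) = S.kl p m := by
  have ht := S.tm_lt_X hm
  funext x
  exact kl_same (Same.active (S.zero_mem_BB p m x) h ht) ht

lemma labF_X {m : ℕ} (ht : S.mv.tm m < S.T) :
    LabF (S.paX m) ((S.M + 1) * S.b0) (S.cfX m) (fun p => S.Z p m) (fun p => S.kl p m) := by
  have hM := S.hM
  refine ⟨fun p => ⟨?_, ?_, S.measurableSet_Z p m, ?_, fun x => ?_, fun x hx => ?_,
    S.measurable_kl p m, S.kl_inv p ht⟩⟩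
  · exact (S.A_meas p m).ennreal_toReal.const_mul _
  · intro x w hw
    unfold cfX
    rw [S.A_inv p m x w hw]
  · exact S.Z_inv p m
  · unfold cfX
    positivity
  · unfold cfX
    have h1 := S.A_le_of_not_Z hx
    have hb : 0 ≤ S.b0 := S.hA0.le.trans S.hAb
    have h2 := ENNReal.toReal_mono ENNReal.ofReal_ne_top h1
    rw [ENNReal.toReal_ofReal hb] at h2
    exact mul_le_mul_of_nonneg_left h2 (by linarith)

lemma c0_X : (S.M + 1) * S.b0 ≤ 1 / 16 := by
  have h := S.hMb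
  have hb : 0 ≤ S.b0 := S.hA0.le.trans S.hAb
  have hM := S.hM
  have h1 : 0 ≤ (S.M + 1) * S.b0 := by positivity
  nlinarith

/-- the condition on the radius: the leaf caps exceed the rim -/
def RimC (Lam : ℝ) : Prop :=
  (Real.sqrt (S.qq * ((finrank ℝ E : ℝ) - 1)) + Real.sqrt (8 * Real.log (S.b0 /
    (S.A0 * S.kap ^ (finrank ℝ E - 1))))) ^ 2 +
    8 * (Lam + Real.log (1 / (S.A0 * S.kap ^ (finrank ℝ E - 1)))) ≤ S.R ^ 2

lemma rim_X {Lam : ℝ} (hR : S.RimC Lam) {m : ℕ} (hm : m < S.mT) (q : List ℕ)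
    (hq : S.W q m = Hp (S.wX m q)) {x : E} (hx : x ∉ S.Z q m) :
    ENNReal.ofReal (Real.exp (-(1 / 8 * (S.R ^ 2 - ‖(Hp (S.wX m q)).starProjection x‖ ^ 2) - Lam)))
      ≤ S.A q m x := by
  have hne := S.wX_ne hm q
  have h1 : finrank ℝ (S.W q m) + 1 = finrank ℝ E := by
    rw [hq]
    have h2 := (Submodule.span ℝ {S.wX m q}).finrank_add_finrank_orthogonal
    rw [finrank_span_singleton hne] at h2
    have h3 : finrank ℝ (Hp (S.wX m q)) = finrank ℝ (Submodule.span ℝ {S.wX m q})ᗮ := rfl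
    omega
  have h2 : finrank ℝ (S.W q m) = finrank ℝ E - 1 := by omega
  have hb0 : 0 < S.b0 := S.hA0.trans_le S.hAb
  have hd2 := S.hd2
  have hmem : S.W q m ∈ S.chn q m := by
    rcases S.W_mem_chn q m with h | h
    · exact h
    · exfalso
      rw [h, finrank_bot] at h2
      omega
  have hk : S.kap ^ (finrank ℝ E - 1) ≤ 1 := pow_le_one₀ S.hkap.le S.hkap1
  have hcast : ((finrank ℝ (S.W q m) : ℕ) : ℝ) = (finrank ℝ E : ℝ) - 1 := by
    rw [h2, Nat.cast_sub (by omega)]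
    simp
  rw [← hq]
  refine H962.exp_le_cap hmem S.hqq.le S.hA0 S.hkap hb0 ?_ ?_ ?_
  · rw [h2]
    calc S.A0 * S.kap ^ (finrank ℝ E - 1) ≤ S.A0 * 1 := mul_le_mul_of_nonneg_left hk S.hA0.le
      _ ≤ S.b0 := by rw [mul_one]; exact S.hAb
  · have h := hR
    unfold RimC at h
    rw [hcast, h2]
    exact h
  · exact S.A_le_of_not_Z hx

lemma rimR_X {Lam : ℝ} (hR : S.RimC Lam) {m : ℕ} (hm : m < S.mT) (q : List ℕ)
    (hq : S.W q m = Hp (S.wX m q)) {x : E} (hx : x ∉ S.Z q m) :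
    Real.exp (-(1 / 8 * (S.R ^ 2 - ‖(Hp (S.wX m q)).starProjection x‖ ^ 2) - Lam))
      ≤ S.cfX m q x := by
  have h1 := S.rim_X hR hm q hq hx
  have h2 := (ENNReal.ofReal_le_iff_le_toReal (S.A_ne_top q m x)).1 h1
  have hM := S.hM
  have h3 : 0 ≤ (S.A q m x).toReal := ENNReal.toReal_nonneg
  refine h2.trans ?_
  unfold cfX
  nlinarith

/-- **STAR at a label of `M2.Sys`**, in terms of the trees of the children: fuel `n`, class `k`. -/
theorem starAt_ch {Lam : ℝ} (hLam : 1 ≤ Lam) (hR : S.RimC Lam) (hδ : S.δ ≤ 1 / 10) {m : ℕ}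
    (h : S.mv.IsStar m) (hm : m < S.mT) {p : List ℕ} (hl : ¬ S.Leaf p m) {n : ℕ}
    (hn : finrank ℝ (S.W p m)ᗮ ≤ n + 1) (k : ℕ) (x : E) :
    StarAt (wd (S.W p m) (wrd S.v (S.K.S p)) (S.mv.tm m))
      (sf (S.W p m) x (FT.fl (ch (S.paX m) (S.cfX m) (fun p => S.Z p m) (fun p => S.kl p m) n p k)
        fun _ => ci (S.X p m)))
      (sf (S.W p m) x (FT.fl (ch (S.paX m) (S.cfX m) (fun p => S.Z p m) (fun p => S.kl p m) n p k)
        fun _ => ci (S.X p (m + 1))))
      (6 * fib (S.W p m) (fun y => ENNReal.ofReal (FT.wt (ch (S.paX m) (S.cfX m) (fun p => S.Z p m)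
          (fun p => S.kl p m) n p k) (fun _ => ci (S.X p m)) y * chR (S.X p m) (S.X p (m + 1)) y)
        + ENNReal.ofReal |FT.fl (ch (S.paX m) (S.cfX m) (fun p => S.Z p m) (fun p => S.kl p m) n p k)
            (fun _ => ci (S.X p m)) y
          - FT.fl (ch (S.paX m) (S.cfX m) (fun p => S.Z p m) (fun p => S.kl p m) n p k)
            (fun _ => ci (S.X p (m + 1))) y|) x) := by
  have ht := S.tm_lt_X hm
  have hE := S.endOK_X h hm
  have hperp : S.wX m p ∈ (S.W p m)ᗮ := S.K.perp p ht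
  have hv : ((wd (S.W p m) (wrd S.v (S.K.S p)) (S.mv.tm m) : (S.W p m)ᗮ) : E) = S.wX m p :=
    H118.coe_wd hperp
  have hnv : ‖wd (S.W p m) (wrd S.v (S.K.S p)) (S.mv.tm m)‖ = S.δ := by
    rw [H118.norm_wd hperp]
    exact S.norm_wX hm p
  obtain ⟨n', rfl⟩ : ∃ n', n = n' + 1 := by
    refine Nat.exists_eq_succ_of_ne_zero ?_
    rintro rfl
    exact hl (show finrank ℝ (S.W p m)ᗮ ≤ 1 by omega)
  have hgood := H713.good_ch (S.ok_X m) (S.labF_X ht) (n' + 1) p k
  have hne : ∀ i, ch (S.paX m) (S.cfX m) (fun p => S.Z p m) (fun p => S.kl p m) (n' + 1) p k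
      ≠ FT.leaf i := by
    intro i hi
    unfold ch at hi
    rw [if_neg (show ¬ (S.paX m).lf p from hl)] at hi
    rw [H713.sft_succ, FT.mp_node] at hi
    cases hi
  refine star_at_node (S.isClosed_X p m) (S.convex_X p m) (S.X_subset_ball p m)
    (by rw [hnv]; exact S.hδ) (by rw [hnv]; exact hδ) (by norm_num : (0:ℝ) ≤ 1 / 8) (by norm_num)
    hLam S.c0_X hgood ?_ ?_ ?_ hne x ?_
  · rw [hv]
    have := (H713.under_sft (c := S.cfX m) (Z := fun p => S.Z p m) (cls := fun p => S.kl p m)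
      hE.wd (n' + 1 + 1) p).2 k
    exact this
  · rw [hv]
    have := last_sft (c := S.cfX m) (Z := fun p => S.Z p m) (cls := fun p => S.kl p m) hE (n' + 1) p
      hn (S.W p m) k
    exact this
  · rw [hv]
    have := (rim_sft (c := S.cfX m) (Z := fun p => S.Z p m) (cls := fun p => S.kl p m) hE.wd
      (R := S.R) (p := 1 / 8) (Lam := Lam) (fun q hq x hx => S.rimR_X hR hm q hq hx)
      (n' + 1 + 1) p).2 k
    exact this
  · rw [hv]
    exact S.X_star h hm p

end Vale.Agent.P262.M2.Sys
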