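import Vale.Agent.P262.M2.Nodes
import Vale.Agent.P262.H44.WKill
import Vale.Agent.P262.H59.StarSys

/-!
# P262, milestone 2: the caps of `M2.Sys` as weights (flat on the fibres of the ancestors)

`chn_ext` : the list of label spaces of a descendant.  `flatAt_As`, `weight_As`, `As_invHp` : the
inputs of the weighted star inequality for the weight `As s q m`.
-/

set_option linter.all false

open MeasureTheory ProbabilityTheory Set Module
open scoped ENNReal RealInnerProductSpace
open Vale.Agent.P262.H395 (fib mix Inv)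
open Vale.Agent.P262.H44 (Weight FlatAt weight_dw flatAt_dw)
open Vale.Agent.P262.H962 (PB CB capS flatD_PB)
open Vale.Agent.P262.H606 (dw)
open Vale.Agent.P262.H59 (Hp)

namespace Vale.Agent.P262.M2.Sys

variable {E : Type*} [NormedAddCommGroup E] [InnerProductSpace ℝ E] [FiniteDimensional ℝ E]
  [MeasurableSpace E] [BorelSpace E] {S : Sys E}

/-- no leaf on the way from `p` down to `q` (the node `q` itself may be a leaf) -/
def Way (S : Sys E) (m : ℕ) (p q : List ℕ) : Prop :=
  p <:+ q ∧ ∀ r, p <:+ r → r <:+ q → r ≠ q → ¬ S.Leaf r m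

lemma Way.refl (m : ℕ) (p : List ℕ) : S.Way m p p :=
  ⟨List.suffix_refl p, fun r h1 h2 h3 => absurd (h1.eq_of_length (le_antisymm h1.length_le
    h2.length_le)).symm h3⟩

lemma Way.of_cons {m c : ℕ} {p q : List ℕ} (h : S.Way m p (c :: q)) (hpq : p <:+ q) :
    S.Way m p q ∧ ¬ S.Leaf q m := by
  refine ⟨⟨hpq, fun r h1 h2 h3 => ?_⟩, ?_⟩
  · refine h.2 r h1 (h2.trans (List.suffix_cons c q)) fun he => ?_
    have := h2.length_le
    rw [he] at this
    simp at this
  · refine h.2 q hpq (List.suffix_cons c q) fun he => ?_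
    have := congrArg List.length he
    simp at this

/-- the list of label spaces of a descendant: strictly increasing extension -/
lemma chn_ext {m : ℕ} (hm : S.mv.tm m < S.T) {p : List ℕ} : ∀ {q : List ℕ} (_ : S.Way m p q),
    ∃ l' : List (Submodule ℝ E), S.chn q m = S.chn p m ++ l' ∧ l'.Pairwise (· < ·) ∧
      (∀ V ∈ l', S.W p m < V) ∧ (∀ V ∈ l', V ≤ S.W q m) ∧ S.W p m ≤ S.W q m := by
  intro q
  induction q with
  | nil =>
    intro h
    have hp : p = [] := List.eq_nil_of_suffix_nil h.1
    subst hp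
    exact ⟨[], by simp, List.Pairwise.nil, by simp, by simp, le_rfl⟩
  | cons c q ih =>
    intro h
    rcases List.suffix_cons_iff.1 h.1 with h1 | h1
    · subst h1
      exact ⟨[], by simp, List.Pairwise.nil, by simp, by simp, le_rfl⟩
    · obtain ⟨h2, h3⟩ := h.of_cons h1
      obtain ⟨l', e, g1, g2, g3, g4⟩ := ih h2
      have hlt := W_lt hm h3 c
      refine ⟨l' ++ [S.W (c :: q) m], ?_, ?_, ?_, ?_, g4.trans hlt.le⟩
      · show S.chn q m ++ [S.W (c :: q) m] = _
        rw [e, List.append_assoc]
      · rw [List.pairwise_append]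
        refine ⟨g1, List.pairwise_singleton _ _, fun a ha b hb => ?_⟩
        rw [List.mem_singleton] at hb
        rw [hb]
        exact (g3 a ha).trans_lt hlt
      · intro V hV
        rcases List.mem_append.1 hV with hV | hV
        · exact g2 V hV
        · rw [List.mem_singleton] at hV
          rw [hV]
          exact g4.trans_lt hlt
      · intro V hV
        rcases List.mem_append.1 hV with hV | hV
        · exact (g3 V hV).trans hlt.le
        · rw [List.mem_singleton] at hV
          rw [hV]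

lemma As_eq_dw (s : ℝ) (p : List ℕ) (m : ℕ) : S.As s p m = fun x =>
    ENNReal.ofReal ((S.A0 * S.kap ^ finrank ℝ (S.W p m)) ^ s) *
      dw (s / 8) (PB (S.chn p m) S.qq) x := rfl

/-- **the cap of a descendant is flat in the fibre of a label.** -/
theorem flatAt_As (hq : 2 * (Real.sqrt 2 * Real.exp (-(S.qq / 4))) ≤ 1 / 41) {s : ℝ} (hs : 0 ≤ s)
    (hs2 : s ≤ 2) {m : ℕ} (hm : S.mv.tm m < S.T) {p q : List ℕ} (h : S.Way m p q) (x : E) :
    FlatAt (1 / 40) (S.As s q m) (S.W p m) x := by
  obtain ⟨l', e, g1, g2, g3, g4⟩ := chn_ext hm h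
  have hF := flatD_PB (l := S.chn p m) (W := S.W p m) hq (by norm_num)
    (fun V hV => S.le_of_mem_chn hV) (S.W_mem_chn p m) g1 g2
  rw [As_eq_dw, e]
  exact (flatAt_dw hF (by norm_num) (by norm_num) (by norm_num)
    (H962.PB_nonempty _ S.hqq.le) (by positivity) (by linarith) x).const_mul
    (H606.continuous_dw _ _).measurable ENNReal.ofReal_ne_top

/-- **the caps are admissible weights.** -/
theorem weight_As {s : ℝ} (hs : 0 ≤ s) (hs4 : s ≤ 4) (q : List ℕ) (m : ℕ) :
    Weight (s / 8) (S.As s q m) := by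
  rw [As_eq_dw]
  exact (weight_dw (H962.isClosed_PB _ _) (H962.zero_mem_PB _ S.hqq.le) (by positivity)
    (by linarith)).const_mul ENNReal.ofReal_ne_top

/-- the caps do not depend on the direction of the star -/
lemma As_invHp {m : ℕ} (hm : m < S.mT) (s : ℝ) (q : List ℕ) :
    Inv (Hp (S.wX m q)) (S.As s q m) := by
  intro x w hw
  refine S.As_inv s q m x w ?_
  have h1 : S.wX m q ∈ (S.W q m)ᗮ := S.K.perp q (S.tm_lt_X hm)
  have h2 : S.W q m ≤ Hp (S.wX m q) := by
    intro u hu
    show u ∈ (Submodule.span ℝ {S.wX m q})ᗮ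
    rw [Submodule.mem_orthogonal_singleton_iff_inner_left]
    exact (Submodule.mem_orthogonal _ _).1 h1 u hu
  exact Submodule.orthogonal_le h2 hw

end Vale.Agent.P262.M2.Sys
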