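import Vale.Agent.P262.H118.RotB
import Vale.Agent.P262.H633.FlatL
import Vale.Agent.P262.H998.LaySum

/-!
# P262, milestone 2: sum over the layers below a label

`b` of norm at most one, `b₁ = P_W b`: the layers `{2^a ≤ 1 + |⟪b, y⟫| < 2^(a+1)}` in the fibre of a
label of `W`, `∑ 2^a (mass of the layer)^(1/4) ≤ 300 (1 + |⟪b₁, x⟫|)`.
-/

set_option linter.all false

open MeasureTheory ProbabilityTheory Set
open scoped ENNReal RealInnerProductSpace

namespace Vale.Agent.P262.H59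

open Vale.Agent.P262.H395 (fib mix)
open Vale.Agent.P262.H118 (la)

variable {E : Type*} [NormedAddCommGroup E] [InnerProductSpace ℝ E] [FiniteDimensional ℝ E]
  [MeasurableSpace E] [BorelSpace E]

lemma inner_mix (W : Submodule ℝ E) (b x z : E) :
    ⟪b, mix W x z⟫ = ⟪W.starProjection b, x⟫ + ⟪b - W.starProjection b, z⟫ := by
  unfold mix
  rw [inner_add_right, inner_sub_right, inner_sub_left,
    Submodule.inner_starProjection_left_eq_right, Submodule.inner_starProjection_left_eq_right]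

lemma norm_sub_proj_le {b : E} (hb : ‖b‖ ≤ 1) (W : Submodule ℝ E) :
    ‖b - W.starProjection b‖ ≤ 1 := by
  have h : b - W.starProjection b = Wᗮ.starProjection b := by
    rw [Submodule.starProjection_orthogonal_val]
  rw [h]
  exact (Submodule.norm_starProjection_apply_le _ _).trans hb

/-- a layer of high index in a fibre is a tail event -/
lemma fib_la_le {b : E} (hb : ‖b‖ ≤ 1) (W : Submodule ℝ E) (x : E) {a : ℕ}
    (ha : 2 * (1 + |⟪W.starProjection b, x⟫|) < 2 ^ a) :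
    fib W ((la b a).indicator 1) x ≤
      ENNReal.ofReal (Real.sqrt 2 * Real.exp (-((2 ^ a / 2) ^ 2 / 4))) := by
  have h2a : (0:ℝ) < 2 ^ a := by positivity
  have h1 := H633.lin_tail (E := E) (norm_sub_proj_le hb W) (k := 2 ^ a / 2) (by positivity)
  refine le_trans ?_ h1
  unfold fib
  have hm : MeasurableSet {z : E | (2:ℝ) ^ a / 2 < |⟪b - W.starProjection b, z⟫|} :=
    measurableSet_lt measurable_const (by fun_prop)
  rw [← lintegral_indicator_one hm]
  apply lintegral_mono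
  intro z
  show (la b a).indicator 1 (mix W x z) ≤
    {z : E | (2:ℝ) ^ a / 2 < |⟪b - W.starProjection b, z⟫|}.indicator 1 z
  by_cases hz : mix W x z ∈ la b a
  · have h3 := hz.1
    rw [inner_mix] at h3
    have h4 := abs_add_le ⟪W.starProjection b, x⟫ ⟪b - W.starProjection b, z⟫
    have h5 : (2:ℝ) ^ a / 2 < |⟪b - W.starProjection b, z⟫| := by linarith
    rw [indicator_of_mem (show z ∈ {z : E | (2:ℝ) ^ a / 2 < |⟪b - W.starProjection b, z⟫|} from h5),
      indicator_of_mem hz]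
    simp
  · rw [indicator_of_notMem hz]
    exact bot_le

lemma fib_la_le_one (b : E) (W : Submodule ℝ E) (x : E) (a : ℕ) :
    fib W ((la b a).indicator 1) x ≤ 1 := by
  unfold fib
  calc ∫⁻ z, (la b a).indicator 1 (mix W x z) ∂stdGaussian E
      ≤ ∫⁻ z : E, 1 ∂stdGaussian E := by
        apply lintegral_mono
        intro z
        exact indicator_le_self' (fun _ _ => zero_le_one) _
    _ = 1 := by simp

lemma tail_term (a : ℕ) :
    (2:ℝ) ^ a * (Real.sqrt 2 * Real.exp (-((2 ^ a / 2) ^ 2 / 4))) ^ (1 / 4 : ℝ)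
      ≤ 80 * (1 / 2) ^ a := by
  have h2a : (1:ℝ) ≤ 2 ^ a := one_le_pow₀ (by norm_num)
  have hs : Real.sqrt 2 ≤ 2 := by
    rw [show (2:ℝ) = Real.sqrt (2 ^ 2) by rw [Real.sqrt_sq (by norm_num)]]
    apply Real.sqrt_le_sqrt
    rw [Real.sqrt_sq (by norm_num)]
    norm_num
  have h1 : (Real.sqrt 2 * Real.exp (-((2 ^ a / 2) ^ 2 / 4))) ^ (1 / 4 : ℝ)
      ≤ 5 / 4 * Real.exp (-((2:ℝ) ^ a * 2 ^ a / 64)) := by
    rw [Real.mul_rpow (Real.sqrt_nonneg _) (Real.exp_nonneg _), ← Real.exp_mul]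
    have e1 : (-(((2:ℝ) ^ a / 2) ^ 2 / 4)) * (1 / 4) = -((2:ℝ) ^ a * 2 ^ a / 64) := by ring
    rw [e1]
    apply mul_le_mul_of_nonneg_right _ (Real.exp_nonneg _)
    have h3 : Real.sqrt 2 ≤ (5 / 4) ^ (4 : ℕ) := by
      rw [show ((5:ℝ) / 4) ^ 4 = Real.sqrt (((5 / 4) ^ 4) ^ 2) by
        rw [Real.sqrt_sq (by positivity)]]
      apply Real.sqrt_le_sqrt
      norm_num
    calc Real.sqrt 2 ^ (1 / 4 : ℝ) ≤ ((5 / 4 : ℝ) ^ (4 : ℕ)) ^ (1 / 4 : ℝ) :=
          Real.rpow_le_rpow (Real.sqrt_nonneg _) h3 (by norm_num)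
      _ = 5 / 4 := by
          rw [← Real.rpow_natCast, ← Real.rpow_mul (by norm_num)]
          norm_num
  have h5 : Real.exp (-((2:ℝ) ^ a * 2 ^ a / 64)) ≤ 64 / (2 ^ a * 2 ^ a) := by
    rw [Real.exp_neg]
    have h6 := Real.add_one_le_exp ((2:ℝ) ^ a * 2 ^ a / 64)
    have h7 : (2:ℝ) ^ a * 2 ^ a / 64 ≤ Real.exp ((2:ℝ) ^ a * 2 ^ a / 64) := by linarith
    calc (Real.exp ((2:ℝ) ^ a * 2 ^ a / 64))⁻¹ ≤ ((2:ℝ) ^ a * 2 ^ a / 64)⁻¹ :=
          inv_anti₀ (by positivity) h7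
      _ = _ := by rw [inv_div]
  calc (2:ℝ) ^ a * (Real.sqrt 2 * Real.exp (-((2 ^ a / 2) ^ 2 / 4))) ^ (1 / 4 : ℝ)
      ≤ 2 ^ a * (5 / 4 * (64 / (2 ^ a * 2 ^ a))) := by
        apply mul_le_mul_of_nonneg_left _ (by positivity)
        exact h1.trans (by gcongr)
    _ = 80 * (1 / 2) ^ a := by
        have h8 : (2 : ℝ) ^ a ≠ 0 := by positivity
        rw [one_div, inv_pow]
        field_simp
        norm_num

/-- **sum over the layers below a label** -/
theorem lay_lab {b : E} (hb : ‖b‖ ≤ 1) (W : Submodule ℝ E) (x : E) :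
    ∑' a : ℕ, ENNReal.ofReal (2 ^ a) * (fib W ((la b a).indicator 1) x) ^ (1 / 4 : ℝ)
      ≤ ENNReal.ofReal 300 * ENNReal.ofReal (1 + |⟪W.starProjection b, x⟫|) := by
  set u : ℝ := 1 + |⟪W.starProjection b, x⟫| with hu
  have hu1 : 1 ≤ u := by have := abs_nonneg ⟪W.starProjection b, x⟫; linarith
  have h1 : ∀ a : ℕ, ENNReal.ofReal (2 ^ a) * (fib W ((la b a).indicator 1) x) ^ (1 / 4 : ℝ)
      ≤ ENNReal.ofReal ((if (2:ℝ) ^ a ≤ 2 * u then (2:ℝ) ^ a else 0) + 80 * (1 / 2) ^ a) := by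
    intro a
    by_cases h : (2:ℝ) ^ a ≤ 2 * u
    · rw [if_pos h]
      calc ENNReal.ofReal (2 ^ a) * (fib W ((la b a).indicator 1) x) ^ (1 / 4 : ℝ)
          ≤ ENNReal.ofReal (2 ^ a) * 1 := by
            gcongr
            exact ENNReal.rpow_le_one (fib_la_le_one b W x a) (by norm_num)
        _ = ENNReal.ofReal (2 ^ a) := mul_one _
        _ ≤ _ := ENNReal.ofReal_le_ofReal (by
            have : (0:ℝ) ≤ 80 * (1 / 2) ^ a := by positivity
            linarith)
    · rw [if_neg h, zero_add]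
      have h2 := fib_la_le hb W x (a := a) (not_le.mp h)
      calc ENNReal.ofReal (2 ^ a) * (fib W ((la b a).indicator 1) x) ^ (1 / 4 : ℝ)
          ≤ ENNReal.ofReal (2 ^ a) *
            (ENNReal.ofReal (Real.sqrt 2 * Real.exp (-((2 ^ a / 2) ^ 2 / 4)))) ^ (1 / 4 : ℝ) := by
            gcongr
        _ = ENNReal.ofReal (2 ^ a * (Real.sqrt 2 * Real.exp (-((2 ^ a / 2) ^ 2 / 4))) ^
              (1 / 4 : ℝ)) := by
            rw [ENNReal.ofReal_rpow_of_nonneg (by positivity) (by norm_num),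
              ← ENNReal.ofReal_mul (by positivity)]
        _ ≤ _ := ENNReal.ofReal_le_ofReal (tail_term a)
  refine ENNReal.tsum_le_of_sum_range_le fun n => ?_
  calc ∑ a ∈ Finset.range n, ENNReal.ofReal (2 ^ a) *
        (fib W ((la b a).indicator 1) x) ^ (1 / 4 : ℝ)
      ≤ ∑ a ∈ Finset.range n, ENNReal.ofReal ((if (2:ℝ) ^ a ≤ 2 * u then (2:ℝ) ^ a else 0)
          + 80 * (1 / 2) ^ a) := Finset.sum_le_sum fun a _ => h1 a
    _ = ENNReal.ofReal (∑ a ∈ Finset.range n, ((if (2:ℝ) ^ a ≤ 2 * u then (2:ℝ) ^ a else 0)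
          + 80 * (1 / 2) ^ a)) := by
        rw [ENNReal.ofReal_sum_of_nonneg]
        intro a _
        split_ifs <;> positivity
    _ ≤ ENNReal.ofReal (300 * u) := by
        apply ENNReal.ofReal_le_ofReal
        rw [Finset.sum_add_distrib, ← Finset.mul_sum]
        have h3 := (H998.sum_two_pow_filter (2 * u) (by linarith) n).trans (min_le_left _ _)
        have h4 : ∑ a ∈ Finset.range n, ((1:ℝ) / 2) ^ a ≤ 2 := by
          have h5 := Summable.sum_le_tsum (f := fun a : ℕ => ((1:ℝ) / 2) ^ a) (Finset.range n)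
            (fun _ _ => by positivity) summable_geometric_two
          rwa [tsum_geometric_two] at h5
        linarith
    _ = _ := ENNReal.ofReal_mul (by norm_num)

end Vale.Agent.P262.H59
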