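import Vale.Agent.P262.H59.StarSys
import Vale.Agent.P262.M2.Fld

/-!
# P262, milestone 2: the star move seen by the field of `M2.Sys` at a label

`Gst p m x` : price of a star move at the label `x` of the node `p`.
-/

set_option linter.all false

open MeasureTheory ProbabilityTheory Set Module
open scoped ENNReal RealInnerProductSpace
open Vale.Agent.P262.H395 (fib mix Inv measurable_fib fib_mono inv_fib)
open Vale.Agent.P262.H118 (wrd wd)
open Vale.Agent.P262.H654 (fr InvR Bd)
open Vale.Agent.P262.H847 (UI)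
open Vale.Agent.P262.H852 (sl)
open Vale.Agent.P262.H44 (StarAt sf sf_UI)
open Vale.Agent.P262.H752 (ci ci_UI chR chR_UI chR_nonneg fib_ofReal)
open Vale.Agent.P262.H713 (FT ch)

namespace Vale.Agent.P262.M2.Sys

variable {E : Type*} [NormedAddCommGroup E] [InnerProductSpace ℝ E] [FiniteDimensional ℝ E]
  [MeasurableSpace E] [BorelSpace E] (S : Sys E)

/-- the weight of the field: `fld = wtf * pf + (killed part)` -/
noncomputable def wtf (p : List ℕ) (m : ℕ) (x : E) : ℝ :=
  FT.wt (S.tC p m (S.kl p m x)) (fun _ => S.pf p m) x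

/-- weighted change of the body and change of the field -/
noncomputable def gst (p : List ℕ) (m : ℕ) (y : E) : ℝ≥0∞ :=
  ENNReal.ofReal (S.wtf p m y * chR (S.X p m) (S.X p (m + 1)) y) +
    ENNReal.ofReal |S.fld p m y - S.fld p (m + 1) y|

/-- **price of a star move** at a label -/
noncomputable def Gst (p : List ℕ) (m : ℕ) (x : E) : ℝ≥0∞ := 6 * fib (S.W p m) (S.gst p m) x

lemma pf_eq_ci (p : List ℕ) (m : ℕ) : S.pf p m = ci (S.X p m) := rfl

/-- the trees do not change in a star move -/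
lemma tC_succ_star {m : ℕ} (h : S.mv.IsStar m) (hm : m < S.mT) (p : List ℕ) :
    S.tC p (m + 1) = S.tC p m := by
  have h1 : S.pa (m + 1) = S.pa m := S.paX_succ h
  have h2 : S.cf (m + 1) = S.cf m := S.cfX_succ (Or.inl h) hm
  have h3 : (fun p => S.Z p (m + 1)) = fun p => S.Z p m :=
    funext fun p => S.Z_succ_X (Or.inl h) hm p
  have h4 : (fun p => S.kl p (m + 1)) = fun p => S.kl p m :=
    funext fun p => S.kl_succ_X (Or.inl h) hm p
  funext k
  unfold tC tCn
  rw [h1, h2, h3, h4]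

lemma fld_succ_star {m : ℕ} (h : S.mv.IsStar m) (hm : m < S.mT) (p : List ℕ) (x : E) :
    S.fld p (m + 1) x = FT.fl (S.tC p m (S.kl p m x)) (fun _ => S.pf p (m + 1)) x := by
  unfold fld
  rw [S.tC_succ_star h hm, S.kl_succ_X (Or.inl h) hm]

variable {S}

lemma LabOK.wtf_UI {m : ℕ} (hL : S.LabOK m) (p : List ℕ) : UI (S.wtf p m) :=
  H713.UI_sel (F := fun k => FT.wt (S.tC p m k) fun _ => S.pf p m)
    (fun k => FT.wt_UI (hL.good_tC (k := k)) S.cc_le' fun _ => S.pf_UI p m) hL.kl_meas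

lemma LabOK.gst_meas {m : ℕ} (hL : S.LabOK m) (hL' : S.LabOK (m + 1)) (p : List ℕ) :
    Measurable (S.gst p m) := by
  have hc : UI (chR (S.X p m) (S.X p (m + 1))) :=
    chR_UI (S.measurableSet_X p m) (S.measurableSet_X p (m + 1))
  exact (((hL.wtf_UI p).meas.mul hc.meas).ennreal_ofReal).add
    ((hL.fld_UI.meas.sub hL'.fld_UI.meas).abs.ennreal_ofReal)

variable (S)

lemma Gst_inv (p : List ℕ) (m : ℕ) : Inv (S.W p m) (S.Gst p m) := by
  intro x w hw
  unfold Gst
  rw [inv_fib (S.W p m) (S.gst p m) x w hw]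

lemma Gst_meas {m : ℕ} (hm : m < S.mT) (p : List ℕ) : Measurable (S.Gst p m) :=
  (measurable_fib ((S.labOK hm.le).gst_meas (S.labOK hm) p)).const_mul 6

/-- **STAR AT A LABEL.** Every node which is not a leaf, every label. -/
theorem star_at {Lam : ℝ} (hLam : 1 ≤ Lam) (hR : S.RimC Lam) (hδ : S.δ ≤ 1 / 10) {m : ℕ}
    (h : S.mv.IsStar m) (hm : m < S.mT) {p : List ℕ} (hl : ¬ S.Leaf p m) (x : E) :
    StarAt (wd (S.W p m) (wrd S.v (S.K.S p)) (S.mv.tm m)) (sf (S.W p m) x (S.fld p m))
      (sf (S.W p m) x (S.fld p (m + 1))) (S.Gst p m x) := by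
  have hL := S.labOK hm.le
  have hn : finrank ℝ (S.W p m)ᗮ ≤ finrank ℝ E + 1 :=
    (Submodule.finrank_le _).trans (Nat.le_succ _)
  have key := S.starAt_ch hLam hR hδ h hm hl hn (S.kl p m x) x
  have e1 : sf (S.W p m) x (S.fld p m) = sf (S.W p m) x
      (FT.fl (ch (S.paX m) (S.cfX m) (fun p => S.Z p m) (fun p => S.kl p m) (finrank ℝ E) p
        (S.kl p m x)) fun _ => ci (S.X p m)) := by
    funext z
    exact hL.fld_fibre (H852.starProjection_sl _ x z)
  have e2 : sf (S.W p m) x (S.fld p (m + 1)) = sf (S.W p m) x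
      (FT.fl (ch (S.paX m) (S.cfX m) (fun p => S.Z p m) (fun p => S.kl p m) (finrank ℝ E) p
        (S.kl p m x)) fun _ => ci (S.X p (m + 1))) := by
    funext z
    show S.fld p (m + 1) (sl (S.W p m) x z) = _
    rw [S.fld_succ_star h hm, hL.kl_eq (H852.starProjection_sl _ x z)]
    rfl
  rw [e1, e2]
  refine key.mono (le_of_eq ?_)
  unfold Gst
  congr 1
  apply H713.fib_congr
  intro y hy
  unfold gst wtf
  rw [S.fld_succ_star h hm, hL.kl_eq hy, hL.fld_fibre hy]
  rfl

/-- the mass changes by at most the price -/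
theorem star_move {m : ℕ} (hm : m < S.mT) (hst : S.mv.IsStar m) (p : List ℕ) (x : E) :
    S.F p m x ≤ S.F p (m + 1) x + S.Gst p m x ∧ S.F p (m + 1) x ≤ S.F p m x + S.Gst p m x := by
  have hL := S.labOK hm.le
  have hL' := S.labOK (m := m + 1) hm
  have u := hL.fld_UI (p := p)
  have u' := hL'.fld_UI (p := p)
  have hW : S.W p (m + 1) = S.W p m := S.W_succ_active (Or.inl hst) p
  have hd := H752.UI.dist u u'
  have hG : fib (S.W p m) (fun y => ENNReal.ofReal |S.fld p m y - S.fld p (m + 1) y|) x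
      ≤ S.Gst p m x := by
    unfold Gst
    have h1 : fib (S.W p m) (fun y => ENNReal.ofReal |S.fld p m y - S.fld p (m + 1) y|) x
        ≤ fib (S.W p m) (S.gst p m) x := fib_mono (fun y => le_add_self) x
    refine h1.trans ?_
    calc fib (S.W p m) (S.gst p m) x = 1 * fib (S.W p m) (S.gst p m) x := (one_mul _).symm
      _ ≤ 6 * fib (S.W p m) (S.gst p m) x := by gcongr; norm_num
  have e0 : S.F p m x = fib (S.W p m) (fun y => ENNReal.ofReal (S.fld p m y)) x := by
    rw [hL.F_eq, fib_ofReal u]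
    rfl
  have e1 : S.F p (m + 1) x = fib (S.W p m) (fun y => ENNReal.ofReal (S.fld p (m + 1) y)) x := by
    rw [hL'.F_eq, fib_ofReal u']
    unfold Fr
    rw [hW]
  have m0 : Measurable fun y => ENNReal.ofReal (S.fld p m y) := u.meas.ennreal_ofReal
  have m1 : Measurable fun y => ENNReal.ofReal (S.fld p (m + 1) y) := u'.meas.ennreal_ofReal
  rw [e0, e1]
  constructor
  · refine le_trans ?_ (add_le_add le_rfl hG)
    rw [← H395.fib_add m1]
    refine fib_mono (fun y => ?_) x
    rw [← ENNReal.ofReal_add (u'.nonneg y) (abs_nonneg _)]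
    apply ENNReal.ofReal_le_ofReal
    linarith [le_abs_self (S.fld p m y - S.fld p (m + 1) y)]
  · refine le_trans ?_ (add_le_add le_rfl hG)
    rw [← H395.fib_add m0]
    refine fib_mono (fun y => ?_) x
    rw [← ENNReal.ofReal_add (u.nonneg y) (abs_nonneg _)]
    apply ENNReal.ofReal_le_ofReal
    linarith [neg_abs_le (S.fld p m y - S.fld p (m + 1) y)]

end Vale.Agent.P262.M2.Sys
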