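import Vale.Agent.P262.H59.G1

/-!
# P262, milestone 1: the star move seen by the field of level `l`, in level-`l` coordinates
-/

set_option linter.all false

open MeasureTheory ProbabilityTheory Set Filter Topology
open scoped ENNReal RealInnerProductSpace
open Vale.Agent.P262.H118 (L Iv st en ONB K1 rotE ON tau)
open Vale.Agent.P262.H395 (fib mix Inv Fixes fib_mono fib_tower fib_le_one fib_eq_self fib_add)
open Vale.Agent.P262.H493 (star)
open Vale.Agent.P262.H654 (Lev fl vis wt kt al hid nk fr InvR Good LevOK Bd sg)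
open Vale.Agent.P262.H847 (UI)
open Vale.Agent.P262.H852 (sl)
open Vale.Agent.P262.H941 (FluxLe)

namespace Vale.Agent.P262.H59

variable {E : Type*} [NormedAddCommGroup E] [InnerProductSpace ℝ E] [FiniteDimensional ℝ E]

omit [FiniteDimensional ℝ E] in
lemma mem_perp_of_fixes {C : E ≃ₗᵢ[ℝ] E} {W : Submodule ℝ E} (h : Fixes C W) {z : E}
    (hz : z ∈ Wᗮ) : C z ∈ Wᗮ := by
  rw [Submodule.mem_orthogonal] at hz ⊢
  intro w hw
  have := hz w hw
  rw [← C.inner_map_map, h w hw] at this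
  exact this

omit [FiniteDimensional ℝ E] in
lemma map_perp_of_fixes {C : E ≃ₗᵢ[ℝ] E} {W : Submodule ℝ E} (h : Fixes C W) :
    Wᗮ.map (C.toLinearEquiv : E →ₗ[ℝ] E) = Wᗮ := by
  ext z
  simp only [Submodule.mem_map]
  constructor
  · rintro ⟨w, hw, rfl⟩
    exact mem_perp_of_fixes h hw
  · intro hz
    exact ⟨C.symm z, mem_perp_of_fixes h.symm hz, C.apply_symm_apply z⟩

/-- the restriction to the fibre of an isometry fixing the labels -/
noncomputable def rperp (C : E ≃ₗᵢ[ℝ] E) (W : Submodule ℝ E) (h : Fixes C W) : Wᗮ ≃ₗᵢ[ℝ] Wᗮ :=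
  (C.submoduleMap Wᗮ).trans (LinearIsometryEquiv.ofEq _ _ (map_perp_of_fixes h))

omit [FiniteDimensional ℝ E] in
@[simp] lemma coe_rperp (C : E ≃ₗᵢ[ℝ] E) (W : Submodule ℝ E) (h : Fixes C W) (z : Wᗮ) :
    ((rperp C W h z : Wᗮ) : E) = C z := rfl

lemma sl_rperp (C : E ≃ₗᵢ[ℝ] E) (W : Submodule ℝ E) (h : Fixes C W) (x : E) (z : Wᗮ) :
    sl W x (rperp C W h z) = C (sl W x z) := by
  unfold H852.sl
  rw [coe_rperp, map_add, h _ (Submodule.starProjection_apply_mem W x)]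

end Vale.Agent.P262.H59

namespace Vale.Agent.P262.H59

variable {F : Type*} [NormedAddCommGroup F] [InnerProductSpace ℝ F] [FiniteDimensional ℝ F]
  [MeasurableSpace F] [BorelSpace F]

lemma integral_isom (ρ : F ≃ₗᵢ[ℝ] F) (f : F → ℝ) :
    ∫ z, f (ρ z) ∂stdGaussian F = ∫ z, f z ∂stdGaussian F :=
  (H395.mp_isometry ρ).integral_comp (ρ.toHomeomorph.measurableEmbedding) f

lemma UI.comp_isom {f : F → ℝ} (hf : UI f) (ρ : F ≃ₗᵢ[ℝ] F) : UI fun z => f (ρ z) :=
  ⟨hf.meas.comp ρ.continuous.measurable, fun z => hf.nonneg _, fun z => hf.le_one _⟩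

/-- the flux does not see isometries -/
lemma FluxLe.comp_isom {f : F → ℝ} {v : F} {c : ℝ} (h : FluxLe f v c) (ρ : F ≃ₗᵢ[ℝ] F) :
    FluxLe (fun z => f (ρ z)) (ρ.symm v) c := by
  intro ε hε
  refine (h ε hε).mono fun t ht => ?_
  have e : ∫ x, |f (ρ (x + t • ρ.symm v)) - f (ρ x)| ∂stdGaussian F
      = ∫ x, |f (x + t • v) - f x| ∂stdGaussian F := by
    rw [← integral_isom ρ (fun x => |f (x + t • v) - f x|)]
    congr 1
    funext x
    rw [map_add, map_smul, LinearIsometryEquiv.apply_symm_apply]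
  rw [e]
  exact ht

end Vale.Agent.P262.H59

namespace Vale.Agent.P262.M1.Sys

variable {E : Type*} [NormedAddCommGroup E] [InnerProductSpace ℝ E] [FiniteDimensional ℝ E]
  [MeasurableSpace E] [BorelSpace E] (S : Sys E)

lemma Cg_star {m : ℕ} (h : S.IsStar m) (l : ℕ) : S.Cg l (m + 1) = S.Cg l m := by
  unfold Cg
  rw [S.U_star h, S.U_star h]

lemma Cg_word {m : ℕ} (h : S.IsStar m) (hm : m < S.mT) (l : ℕ) :
    S.Cg l m (S.word S.lf m) = S.word l m := by
  unfold Cg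
  rw [S.word_eq h hm, S.word_eq h hm, LinearIsometryEquiv.trans_apply,
    LinearIsometryEquiv.apply_symm_apply]

/-- the word of level `l` as an element of the fibre -/
noncomputable def wordL (l m : ℕ) (hl : l ≤ S.lf) (hm : m < S.mT) : (L S.f l)ᗮ :=
  ⟨S.word l m, S.word_mem hm (by have := S.d_eq; omega)⟩

lemma wordL_eq {l m : ℕ} (hl : l ≤ S.lf) (hm : m < S.mT) :
    S.wordL l m hl hm = H118.wd (L S.f l) (H118.wrd S.v (S.K.S l)) (S.tm m) := by
  apply Subtype.ext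
  exact (H118.coe_wd (S.K.perp l (by have := S.d_eq; omega) _ (S.tm_lt_of_lt hm))).symm

/-- **The star move in the form `Gp`.** -/
theorem star_gp {c0 cs : ℝ} (hM : 2 ≤ S.M) (h0 : 0 ≤ c0) (hc0 : (S.M + 1) * S.cp.b0 ≤ c0)
    (hc : c0 ≤ 1 / 16) (hk : S.cp.kap ≤ 1) (hδ : 0 < S.δ) (hδ' : S.δ ≤ 1 / 10)
    (hsg : sg c0 ^ S.d ≤ 2) (hcs : 8 ≤ cs) (c : ℝ) {l m : ℕ} (hl : l < S.lf) (hm : m < S.mT)
    (hst : S.IsStar m) (x : E) :
    ∃ mf : (L S.f l)ᗮ → ℝ, ∃ F a₁ a₂ : ℝ, UI mf ∧ 0 ≤ F ∧ 0 ≤ a₁ ∧ 0 ≤ a₂ ∧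
      FluxLe mf (S.wordL l m hl.le hm) F ∧
      ∫ z, |mf z - S.fldL l m (sl (L S.f l) x z)| ∂stdGaussian (L S.f l)ᗮ ≤ a₁ ∧
      ∫ z, |S.fldL l (m + 1) (sl (L S.f l) x z) - mf z| ∂stdGaussian (L S.f l)ᗮ ≤ a₂ ∧
      ENNReal.ofReal (F + a₁ + a₂) ≤ S.Gp cs c l m x := by
  have hd := S.d_eq
  have hWlf : L S.f l ≤ L S.f S.lf := H118.L_mono S.f hl.le
  set W := L S.f l with hW
  have hv : S.word S.lf m ∈ Wᗮ :=
    Submodule.orthogonal_le hWlf (S.word_mem hm (by omega))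
  set v : Wᗮ := ⟨S.word S.lf m, hv⟩ with hvdef
  have hnv : ‖v‖ = S.δ := S.norm_word hm S.lf
  set K := S.X S.lf m with hK
  have hXs : S.X S.lf (m + 1) = star K (v : E) ∩ Metric.closedBall 0 S.R :=
    S.X_star hst hm S.lf
  have hKc := S.isClosed_X S.lf m
  have hKR := S.X_subset_ball S.lf m
  have hG := S.good_lvs (by linarith) hc0 (l + 1) S.d
  have hmX := ((S.measurableSet_X S.lf m).inter (S.measurableSet_X S.lf (m + 1))).compl
  have hgU : UI (ind Kᶜ) := ind_UI (S.measurableSet_X S.lf m).compl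
  have hGU : UI (ind (K ∩ S.X S.lf (m + 1))ᶜ) := ind_UI hmX
  have hgG : ∀ y, ind Kᶜ y ≤ ind (K ∩ S.X S.lf (m + 1))ᶜ y := by
    intro y
    by_cases hy : y ∈ K
    · rw [ind_notMem (show y ∉ Kᶜ from fun h => h hy)]; exact ind_nonneg _ _
    · rw [ind_mem (show y ∈ Kᶜ from hy),
        ind_mem (show y ∈ (K ∩ S.X S.lf (m + 1))ᶜ from fun h => hy h.1)]
  have hinn : ∀ y, vis (S.lvs (l + 1) S.d) (ind (K ∩ S.X S.lf (m + 1))ᶜ) y ≠ 0 →
      y ∈ S.inn l S.lf m := fun y hy => S.mem_inn_star (by linarith) hc0 hc hk hm hst hy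
  have hline : ∀ z : Wᗮ, wt (S.lvs (l + 1) S.d) (Kᶜ.indicator fun _ => (1 : ℝ)) (sl W x z) ≠ 0 →
      H59.OnLine K v S.R (1 / 8) 1 (sl W x z) := by
    intro z hz
    apply S.onLine_of_om hM hδ hm hst
    refine hinn _ ?_ S.lf hl le_rfl
    have h1 := H654.wt_mono hG hc hgU hGU hgG (sl W x z)
    have h2 := H654.wt_le_vis hG hc hGU (sl W x z)
    have h3 := (H654.wt_UI hG hc hgU).nonneg (sl W x z)
    have h4 : 0 < wt (S.lvs (l + 1) S.d) (ind Kᶜ) (sl W x z) := lt_of_le_of_ne h3 (Ne.symm hz)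
    exact (h4.trans_le (h1.trans h2)).ne'
  obtain ⟨mf, F, a₁, a₂, hmf, hF, ha1, ha2, hfl, hi1, hi2, hsum⟩ :=
    H59.step_fl (W := W) (v := v) hKc (S.convex_X S.lf m) hKR (by rw [hnv]; exact hδ)
      (by rw [hnv]; exact hδ') (p := 1 / 8) (Lam := 1) (by norm_num) (by norm_num) le_rfl hG h0 hc
      (fun q hq => by
        obtain ⟨i, h1, h2, rfl⟩ := S.mem_lvs.mp hq
        exact H118.L_mono S.f (by omega))
      (fun q hq => by
        obtain ⟨i, h1, h2, rfl⟩ := S.mem_lvs.mp hq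
        exact S.L_le_Hp hm (by omega)) x hline
  -- change of coordinates
  have hCf := S.fixes_Cg hl.le m
  set ρ : Wᗮ ≃ₗᵢ[ℝ] Wᗮ := H59.rperp (S.Cg l m).symm W hCf.symm with hρ
  have hρs : ρ.symm v = S.wordL l m hl.le hm := by
    rw [LinearIsometryEquiv.symm_apply_eq]
    apply Subtype.ext
    show S.word S.lf m = ((ρ (S.wordL l m hl.le hm) : Wᗮ) : E)
    rw [hρ, H59.coe_rperp]
    show _ = (S.Cg l m).symm (S.word l m)
    rw [← S.Cg_word hst hm l, LinearIsometryEquiv.symm_apply_apply]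
  have hsl : ∀ z : Wᗮ, (S.Cg l m).symm (sl W x z) = sl W x (ρ z) := fun z =>
    (H59.sl_rperp (S.Cg l m).symm W hCf.symm x z).symm
  refine ⟨fun z => mf (ρ z), F, a₁, a₂, H59.UI.comp_isom hmf ρ, hF, ha1, ha2, ?_, ?_, ?_, ?_⟩
  · rw [← hρs]; exact H59.FluxLe.comp_isom hfl ρ
  · refine le_trans (le_of_eq ?_) hi1
    rw [← H59.integral_isom ρ (fun z => |mf z - fl (S.lvs (l + 1) S.d)
      (Kᶜ.indicator fun _ => (1 : ℝ)) (sl W x z)|)]
    congr 1
    funext z
    show |mf (ρ z) - S.fld l m ((S.Cg l m).symm (sl W x z))| = _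
    rw [hsl]
    rfl
  · refine le_trans (le_of_eq ?_) hi2
    rw [← H59.integral_isom ρ (fun z => |fl (S.lvs (l + 1) S.d)
      ((star K (v : E) ∩ Metric.closedBall 0 S.R)ᶜ.indicator fun _ => (1 : ℝ)) (sl W x z) - mf z|)]
    congr 1
    funext z
    show |S.fld l (m + 1) ((S.Cg l (m + 1)).symm (sl W x z)) - mf (ρ z)| = _
    rw [S.Cg_star hst, hsl, ← hXs]
    rfl
  · -- the bound
    set D : Set E := (star K (v : E) ∩ Metric.closedBall 0 S.R) \ K
      ∪ K \ (star K (v : E) ∩ Metric.closedBall 0 S.R) with hD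
    have hDs : D = symmDiff (S.X S.lf m) (S.X S.lf (m + 1)) := by
      rw [hD, ← hXs, Set.symmDiff_def, Set.union_comm]
    have hDm : MeasurableSet D := by
      rw [hDs]
      exact (S.measurableSet_X S.lf m).symmDiff (S.measurableSet_X S.lf (m + 1))
    have hIm : MeasurableSet (S.inn l S.lf m) := by
      have e : S.inn l S.lf m = ⋂ i : {i // l < i ∧ i ≤ S.lf}, S.om i m := by
        ext y
        simp only [inn, mem_setOf_eq, mem_iInter, Subtype.forall, and_imp]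
      rw [e]
      exact MeasurableSet.iInter fun i => H502.measurableSet_om S i m
    have hXe : (star K (v : E) ∩ Metric.closedBall 0 S.R) = S.X S.lf (m + 1) := hXs.symm
    have hvisU := H654.vis_UI hG hc hGU
    have h1 : fr W (fun y => vis (S.lvs (l + 1) S.d)
        ((K ∩ (star K (v : E) ∩ Metric.closedBall 0 S.R))ᶜ.indicator fun _ => (1 : ℝ)) y
          * D.indicator (fun _ => (1 : ℝ)) y) x
        ≤ fr W (ind (S.inn l S.lf m ∩ D)) x := by
      rw [hXe]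
      refine H654.fr_mono (Bd.of_UI (H59.UI_mul_ind hvisU hDm)) (Bd.of_UI (ind_UI (hIm.inter hDm)))
        (fun y => ?_) x
      by_cases hy : y ∈ D
      · rw [indicator_of_mem hy, mul_one]
        by_cases hv0 : vis (S.lvs (l + 1) S.d) (ind (K ∩ S.X S.lf (m + 1))ᶜ) y = 0
        · exact hv0.le.trans (ind_nonneg _ _)
        · rw [ind_mem (show y ∈ S.inn l S.lf m ∩ D from ⟨hinn y hv0, hy⟩)]
          exact hvisU.le_one y
      · rw [indicator_of_notMem hy, mul_zero]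
        exact ind_nonneg _ _
    have hsg1 := H654.one_le_sg h0 hc
    have h2 : sg c0 ^ (S.lvs (l + 1) S.d).length ≤ 2 := by
      rw [S.length_lvs]
      exact (pow_le_pow_right₀ hsg1 (by omega)).trans hsg
    have h3 : F + a₁ + a₂ ≤ cs * fr W (ind (S.inn l S.lf m ∩ D)) x := by
      refine hsum.trans ((mul_le_mul_of_nonneg_left h1 (by positivity)).trans ?_)
      exact mul_le_mul_of_nonneg_right (by linarith) (H654.fr_nonneg (ind_nonneg _) x)
    refine (ENNReal.ofReal_le_ofReal h3).trans ?_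
    unfold Gp
    rw [if_pos hst, ENNReal.ofReal_mul (by linarith), fib_ind (hIm.inter hDm), hDs]
    exact le_rfl

end Vale.Agent.P262.M1.Sys
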