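import Vale.Agent.P262.M1.Fld

/-!
# P262, milestone 1: (R1), (R2) and the three masses of a label
-/

set_option linter.all false

open MeasureTheory ProbabilityTheory Set
open scoped ENNReal RealInnerProductSpace
open Vale.Agent.P262.H118 (L Iv st en ONB K1 rotE ON tau)
open Vale.Agent.P262.H395 (fib mix Inv Fixes fib_mono fib_tower fib_le_one fib_eq_self fib_add)
open Vale.Agent.P262.H493 (star)
open Vale.Agent.P262.H654 (Lev fl vis wt kt al hid nk fr InvR Good LevOK Bd)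
open Vale.Agent.P262.H847 (UI)

namespace Vale.Agent.P262.H654

variable {E : Type*} [NormedAddCommGroup E] [InnerProductSpace ℝ E] [FiniteDimensional ℝ E]
  [MeasurableSpace E] [BorelSpace E]

/-- the field is at most the payoff plus the killed indicator -/
lemma fl_le_add_al {c0 : ℝ} {L : List (Lev E)} (hL : Good c0 L) (hc : c0 ≤ 1 / 16) {g : E → ℝ}
    (hg : UI g) (x : E) : fl L g x ≤ g x * al L x + (1 - al L x) := by
  induction L with
  | nil => simp [al]
  | cons p L ih =>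
    obtain ⟨hp, hab, hL⟩ := hL
    have h1 := ih hL
    have hF := UI.fr (fl_UI hL hc hg) p.W
    rw [fl_cons, al_cons]
    unfold nk
    split_ifs with h
    · simp
    · have h2 := phi_le_one (hp.nonneg x) ((hp.le x h).trans hc) (hF.nonneg x)
      have h3 := (fl_UI hL hc hg).nonneg x
      nlinarith

end Vale.Agent.P262.H654

namespace Vale.Agent.P262.M1.Sys

variable {E : Type*} [NormedAddCommGroup E] [InnerProductSpace ℝ E] [FiniteDimensional ℝ E]
  [MeasurableSpace E] [BorelSpace E] (S : Sys E)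

lemma d_eq : S.d = S.lf + 1 := by
  have := S.hd2
  unfold lf
  omega

/-! ### change of coordinates -/

lemma fixes_Cg {l : ℕ} (hl : l ≤ S.lf) (m : ℕ) : Fixes (S.Cg l m) (L S.f l) := by
  obtain ⟨C, hC, hU⟩ := S.el.exists_change m hl
  have : S.Cg l m = C := by
    unfold Cg
    rw [hU]
    ext x
    simp
  rw [this]
  exact hC

lemma mem_X_lf (l m : ℕ) (x : E) : x ∈ S.X S.lf m ↔ S.Cg l m x ∈ S.X l m := by
  unfold X Cg
  simp

lemma fr_fldL {l : ℕ} (hl : l ≤ S.lf) (m : ℕ) (x : E) :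
    fr (L S.f l) (S.fldL l m) x = S.Fv l m x := fr_fixes_symm (S.fixes_Cg hl m) _ x

/-! ### killed mass -/

lemma inv_indZ (i : ℕ) : Inv (L S.f i) ((S.cp.Z i).indicator 1) := by
  intro x w hw
  by_cases h : x ∈ S.cp.Z i
  · rw [indicator_of_mem h, indicator_of_mem ((S.cp.Z_cyl i x w hw).mpr h)]; rfl
  · rw [indicator_of_notMem h, indicator_of_notMem (fun h' => h ((S.cp.Z_cyl i x w hw).mp h'))]

lemma fib_killed (hk : S.cp.kap ≤ 1) {l : ℕ} (hl : l ≤ S.lf) {x : E} (hx : x ∉ S.cp.Z l) :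
    fib (L S.f l) ((S.cp.Z S.lf).indicator 1) x ≤ ENNReal.ofReal (S.cp.kap * S.cp.A l x) := by
  obtain ⟨n, hn⟩ : ∃ n, l + n = S.lf := ⟨S.lf - l, by omega⟩
  induction n generalizing l x with
  | zero =>
    have : l = S.lf := by omega
    rw [← this, fib_eq_self (S.inv_indZ l), indicator_of_notMem hx]
    exact zero_le
  | succ n ih =>
    have hm : Measurable ((S.cp.Z S.lf).indicator (1 : E → ℝ≥0∞)) :=
      measurable_one.indicator (S.measurableSet_Z S.lf)
    rw [← fib_tower (H118.L_le_succ S.f l) hm]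
    have hd := S.d_eq
    refine (fib_mono (fun y => ?_) x).trans (S.cp.child l (by omega) x hx)
    by_cases hy : y ∈ S.cp.Z (l + 1)
    · rw [indicator_of_mem hy]
      refine (fib_le_one (fun z => ?_) y).trans (le_add_self)
      exact indicator_le_self' (fun _ _ => zero_le_one) z
    · refine (ih (by omega) hy (by omega)).trans ?_
      refine (ENNReal.ofReal_le_ofReal ?_).trans le_self_add
      have := S.cp.A_pos (l + 1) y
      nlinarith

/-! ### the rule -/

lemma De_le_Dc (i m : ℕ) (x : E) : S.De i m x ≤ S.Dc i m x :=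
  fib_mono (fun y => indicator_le_indicator_of_subset
    (compl_subset_compl.mpr inter_subset_left) (fun _ => zero_le) y) x

lemma De_succ_le_Dc (i m : ℕ) (x : E) : S.De i (m + 1) x ≤ S.Dc i m x :=
  fib_mono (fun y => indicator_le_indicator_of_subset
    (compl_subset_compl.mpr inter_subset_right) (fun _ => zero_le) y) x

lemma mem_om_of_Dc {i m' k : ℕ} {x : E} (h1 : S.sB i m' ≤ k) (h2 : k < S.eB i m')
    (hx : x ∉ S.cp.Z i) (h : ENNReal.ofReal (S.M * S.cp.A i x) ≤ S.Dc i k x) : x ∈ S.om i m' :=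
  ⟨hx, Or.inr ⟨k, h1, h2, h⟩⟩

lemma mem_om_of_De (hM : 1 ≤ S.M) {i m' k : ℕ} {x : E} (hs : S.Same i m' k)
    (hx : x ∉ S.cp.Z i) (h : ENNReal.ofReal (S.M * S.cp.A i x) ≤ S.De i k x) :
    x ∈ S.om i m' := by
  rcases eq_or_lt_of_le hs.2 with h1 | h1
  · refine ⟨hx, Or.inl ?_⟩
    rw [← h1]
    refine (ENNReal.ofReal_le_ofReal ?_).trans h
    have := S.cp.A_pos i x
    nlinarith
  · exact S.mem_om_of_Dc hs.1 h1 hx (h.trans (S.De_le_Dc i k x))

/-- **(R1)** stopped labels are healthy at every state of their block. -/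
theorem R1_of (hM : 1 ≤ S.M) (hk : S.cp.kap ≤ 1)
    (hb : (S.M + S.cp.kap) * S.cp.b0 ≤ 1 / 5) : S.R1 := by
  intro l m' m x hl hm' hs hx hom
  have hll : l ≤ S.lf := by
    have := S.d_eq
    omega
  have hA := S.cp.A_le l x hx
  have hA0 := S.cp.A_pos l x
  have hk0 := S.cp.kap_pos
  have hb0 := S.cp.b0_pos
  have h1 : S.De l m x ≤ ENNReal.ofReal (S.M * S.cp.b0) := by
    by_contra hcon
    rw [not_le] at hcon
    refine hom (S.mem_om_of_De hM hs hx ?_)
    exact (ENNReal.ofReal_le_ofReal (mul_le_mul_of_nonneg_left hA (by linarith))).trans hcon.le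
  have h2 : fib (L S.f l) ((S.cp.Z S.lf).indicator 1) x ≤ ENNReal.ofReal (S.cp.kap * S.cp.b0) :=
    (S.fib_killed hk hll hx).trans (ENNReal.ofReal_le_ofReal
      (mul_le_mul_of_nonneg_left hA hk0.le))
  have h3 : (1 : ℝ≥0∞) ≤ S.q l m x + (S.De l m x
      + fib (L S.f l) ((S.cp.Z S.lf).indicator 1) x) := by
    have mX := S.measurableSet_X S.lf m
    have mZ := S.measurableSet_Z S.lf
    have m1 : Measurable ((S.Kq m).indicator (1 : E → ℝ≥0∞)) :=
      measurable_one.indicator (mX.diff mZ)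
    have m2 : Measurable ((S.X S.lf m)ᶜ.indicator (1 : E → ℝ≥0∞)) :=
      measurable_one.indicator mX.compl
    unfold q
    rw [S.De_eq m hll, ← fib_add m2, ← fib_add m1]
    refine (H395.fib_const (L S.f l) 1 x).ge.trans (fib_mono (fun y => ?_) x)
    by_cases h5 : y ∈ S.X S.lf m
    · by_cases h6 : y ∈ S.cp.Z S.lf
      · rw [indicator_of_mem h6]
        exact le_add_left le_add_self
      · rw [indicator_of_mem (show y ∈ S.Kq m from ⟨h5, h6⟩)]
        exact le_self_add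
    · rw [indicator_of_mem (show y ∈ (S.X S.lf m)ᶜ from h5)]
      exact le_add_left le_self_add
  have h4 : S.De l m x + fib (L S.f l) ((S.cp.Z S.lf).indicator 1) x
      ≤ ENNReal.ofReal (1 / 5) := by
    refine (add_le_add h1 h2).trans ?_
    rw [← ENNReal.ofReal_add (by positivity) (by positivity)]
    exact ENNReal.ofReal_le_ofReal (by nlinarith)
  have h5 : ENNReal.ofReal (4 / 5) + ENNReal.ofReal (1 / 5) ≤ S.q l m x
      + ENNReal.ofReal (1 / 5) := by
    rw [← ENNReal.ofReal_add (by norm_num) (by norm_num)]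
    have : (4 / 5 + 1 / 5 : ℝ) = 1 := by norm_num
    rw [this, ENNReal.ofReal_one]
    exact h3.trans (add_le_add le_rfl h4)
  exact (ENNReal.add_le_add_iff_right ENNReal.ofReal_ne_top).mp h5

/-! ### visible labels -/

/-- what a nonzero visibility says at every level -/
lemma vis_ne {g : E → ℝ} {l r : ℕ} {y : E} (hy : vis (S.lvs (l + 1) (r + 1)) g y ≠ 0) :
    ∀ i, l < i → i ≤ r → y ∉ S.cp.Z i ∧
      (S.M + 1) * S.cp.A i y < fr (L S.f i) (fl (S.lvs (i + 1) (r + 1)) g) y := by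
  obtain ⟨n, hn⟩ : ∃ n, r - l = n := ⟨_, rfl⟩
  induction n generalizing l with
  | zero => intro i h1 h2; omega
  | succ n ih =>
    intro i h1 h2
    rw [S.lvs_cons (by omega : l + 1 < r + 1), H654.vis_cons] at hy
    have hy1 := left_ne_zero_of_mul hy
    have hy2 := right_ne_zero_of_mul hy
    rcases Nat.eq_or_lt_of_le (Nat.succ_le_of_lt h1) with h | h
    · have h' : i = l + 1 := h.symm
      subst h'
      unfold H654.vi at hy1
      by_contra hcon
      exact hy1 (if_neg hcon)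
    · exact ih hy2 (by omega) i h h2

/-- killed labels of the levels `a ≤ i < b` are killed at the last level -/
lemma al_lvs {a b : ℕ} (hb : b ≤ S.d) (y : E) :
    1 - al (S.lvs a b) y ≤ ind (S.cp.Z S.lf) y := by
  rw [H654.al_eq_ite]
  split_ifs with h
  · rw [sub_self]; exact ind_nonneg _ _
  · push Not at h
    obtain ⟨p, hp, hpz⟩ := h
    obtain ⟨i, h1, h2, rfl⟩ := S.mem_lvs.mp hp
    have hd := S.d_eq
    rw [ind_mem (S.Z_mono' (show i ≤ S.lf by omega) hpz)]
    linarith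

/-- visible mass against the mass of the payoff -/
lemma fr_fl_le {c0 : ℝ} (hM : 0 ≤ S.M) (hc0 : (S.M + 1) * S.cp.b0 ≤ c0) (hc : c0 ≤ 1 / 16)
    (hk : S.cp.kap ≤ 1) {g : E → ℝ} (hg : UI g) {a b i : ℕ} (hb : b ≤ S.d) (hi : i ≤ S.lf) {y : E}
    (hy : y ∉ S.cp.Z i) :
    ENNReal.ofReal (fr (L S.f i) (fl (S.lvs a b) g) y)
      ≤ fib (L S.f i) (fun z => ENNReal.ofReal (g z)) y + ENNReal.ofReal (S.cp.A i y) := by
  have hG := S.good_lvs hM hc0 a b
  have hU := H654.fl_UI hG hc hg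
  have m2 : Measurable ((S.cp.Z S.lf).indicator (1 : E → ℝ≥0∞)) :=
    measurable_one.indicator (S.measurableSet_Z S.lf)
  rw [H654.ofReal_fr (Bd.of_UI hU) hU.nonneg]
  have h1 : fib (L S.f i) (fun z => ENNReal.ofReal (fl (S.lvs a b) g z)) y
      ≤ fib (L S.f i) (fun z => ENNReal.ofReal (g z) + (S.cp.Z S.lf).indicator 1 z) y := by
    refine fib_mono (fun z => ?_) y
    have h2 := H654.fl_le_add_al hG hc hg z
    have h3 := S.al_lvs (a := a) hb z
    have h4 := (H654.al_UI hG).le_one z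
    have h5 := (H654.al_UI hG).nonneg z
    have h6 := hg.nonneg z
    have h7 : fl (S.lvs a b) g z ≤ g z + ind (S.cp.Z S.lf) z := by nlinarith
    refine (ENNReal.ofReal_le_ofReal h7).trans ?_
    rw [ENNReal.ofReal_add h6 (ind_nonneg _ _), ofReal_ind]
    rfl
  refine h1.trans ?_
  rw [H395.fib_add_right m2]
  refine add_le_add le_rfl ((S.fib_killed hk hi hy).trans (ENNReal.ofReal_le_ofReal ?_))
  have := S.cp.A_pos i y
  nlinarith

/-- cancelling the extra cap -/
lemma M_le_of {i : ℕ} {y : E} {a : ℝ} {b : ℝ≥0∞} (hM : 0 ≤ S.M)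
    (h1 : (S.M + 1) * S.cp.A i y < a)
    (h2 : ENNReal.ofReal a ≤ b + ENNReal.ofReal (S.cp.A i y)) :
    ENNReal.ofReal (S.M * S.cp.A i y) ≤ b := by
  have hA := S.cp.A_pos i y
  have h3 : ENNReal.ofReal (S.M * S.cp.A i y) + ENNReal.ofReal (S.cp.A i y)
      ≤ b + ENNReal.ofReal (S.cp.A i y) := by
    rw [← ENNReal.ofReal_add (by positivity) hA.le]
    refine (ENNReal.ofReal_le_ofReal ?_).trans h2
    linarith
  exact (ENNReal.add_le_add_iff_right ENNReal.ofReal_ne_top).mp h3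

/-- a star or a rotation lies inside the blocks of all the levels -/
lemma move_mem {m : ℕ} (hm : m ≤ S.mT) (h : S.IsStar m ∨ S.IsRot m) (i : ℕ) :
    S.sB i m ≤ m ∧ m < S.eB i m := by
  have h3 := S.tm_spec m
  have h1 := H502.sT_spec S (k := i) hm
  have h2 := S.n_strictMono.monotone h1.2.1
  have h4 := S.n_strictMono.monotone (Nat.succ_le_of_lt h1.2.2)
  have h5 := S.el.n_succ (S.tm m)
  simp only [Nat.succ_eq_add_one] at h4
  unfold Sys.sB Sys.eB
  rcases h with h | h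
  · have h' := h
    unfold IsStar at h'
    by_cases a : i = S.lf
    · rw [if_pos a, if_pos a, if_pos h, if_pos h]; omega
    · rw [if_neg a, if_neg a]; omega
  · have h' := h
    have hns := h.not_star S
    unfold IsRot at h'
    by_cases a : i = S.lf
    · rw [if_pos a, if_pos a, if_neg hns, if_neg hns]; omega
    · rw [if_neg a, if_neg a]; omega

/-- **(R2), outer moves**: a label path visible for the intersection of the two bodies is counted. -/
theorem mem_inn_out {c0 : ℝ} (hM : 1 ≤ S.M) (hc0 : (S.M + 1) * S.cp.b0 ≤ c0) (hc : c0 ≤ 1 / 16)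
    (hk : S.cp.kap ≤ 1) {l m : ℕ} (hm : m < S.mT) (hout : ∀ i, l < i → i ≤ S.lf → S.Out i m)
    (hsr : S.IsStar m ∨ S.IsRot m) {y : E}
    (hy : vis (S.lvs (l + 1) S.d) (ind (S.X S.lf m ∩ S.X S.lf (m + 1))ᶜ) y ≠ 0) :
    y ∈ S.inn l S.lf m := by
  intro i h1 h2
  have hd := S.d_eq
  rw [hd] at hy
  obtain ⟨hz, hlt⟩ := S.vis_ne hy i h1 h2
  have hmX := ((S.measurableSet_X S.lf m).inter (S.measurableSet_X S.lf (m + 1))).compl
  have h3 := S.fr_fl_le (by linarith) hc0 hc hk (ind_UI hmX) (a := i + 1) (b := S.lf + 1)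
    (by omega) h2 hz
  obtain ⟨a1, a2⟩ := S.move_mem hm.le hsr i
  refine S.mem_om_of_Dc a1 a2 hz (S.M_le_of (by linarith) hlt ?_)
  rw [S.Dc_eq (hout i h1 h2) h2]
  simp only [ofReal_ind] at h3
  exact h3

/-- **(R2), outer moves, leaf level included**: star moves. -/
theorem mem_inn_star {c0 : ℝ} (hM : 1 ≤ S.M) (hc0 : (S.M + 1) * S.cp.b0 ≤ c0) (hc : c0 ≤ 1 / 16)
    (hk : S.cp.kap ≤ 1) {l m : ℕ} (hm : m < S.mT) (hst : S.IsStar m) {y : E}
    (hy : vis (S.lvs (l + 1) S.d) (ind (S.X S.lf m ∩ S.X S.lf (m + 1))ᶜ) y ≠ 0) :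
    y ∈ S.inn l S.lf m :=
  S.mem_inn_out hM hc0 hc hk hm (fun _ _ _ => Or.inl hst) (Or.inl hst) hy

/-- **(R2), inner moves**: payoffs `G` at the labels of level `r` which are at most the deficit
plus the killed mass; every visible level `l < i ≤ r` has `M * A ≤ De`. -/
theorem De_of_vis_in {c0 : ℝ} (hM : 0 ≤ S.M) (hc0 : (S.M + 1) * S.cp.b0 ≤ c0) (hc : c0 ≤ 1 / 16)
    (hk : S.cp.kap ≤ 1) {l r m : ℕ} (hr : r ≤ S.lf) {G : E → ℝ} (hG : UI G)
    (hGD : ∀ y, ENNReal.ofReal (G y) ≤ S.De r m y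
      + fib (L S.f r) ((S.cp.Z S.lf).indicator 1) y) {y : E}
    (hy : vis (S.lvs (l + 1) (r + 1)) G y ≠ 0) :
    ∀ i, l < i → i ≤ r → y ∉ S.cp.Z i ∧ ENNReal.ofReal (S.M * S.cp.A i y) ≤ S.De i m y := by
  intro i h1 h2
  obtain ⟨hz, hlt⟩ := S.vis_ne hy i h1 h2
  refine ⟨hz, S.M_le_of hM hlt ?_⟩
  have hd := S.d_eq
  have hGd := S.good_lvs hM hc0 (i + 1) (r + 1)
  have hU := H654.fl_UI hGd hc hG
  have mZ : Measurable ((S.cp.Z S.lf).indicator (1 : E → ℝ≥0∞)) :=
    measurable_one.indicator (S.measurableSet_Z S.lf)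
  have mX : Measurable ((S.X S.lf m)ᶜ.indicator (1 : E → ℝ≥0∞)) :=
    measurable_one.indicator (S.measurableSet_X S.lf m).compl
  rw [H654.ofReal_fr (Bd.of_UI hU) hU.nonneg]
  have hkill : ∀ z, z ∈ S.cp.Z r → fib (L S.f r) ((S.cp.Z S.lf).indicator 1) z = 1 := by
    intro z hz'
    have e : fib (L S.f r) ((S.cp.Z r).indicator 1) z = 1 := by
      rw [fib_eq_self (S.inv_indZ r), indicator_of_mem hz']; rfl
    refine le_antisymm (fib_le_one (fun w => indicator_le_self' (fun _ _ => zero_le_one) w) z) ?_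
    rw [← e]
    exact fib_mono (fun w => indicator_le_indicator_of_subset (S.Z_mono' hr)
      (fun _ => zero_le) w) z
  have h3 : fib (L S.f i) (fun z => ENNReal.ofReal (fl (S.lvs (i + 1) (r + 1)) G z)) y
      ≤ fib (L S.f i) (fun z => S.De r m z + fib (L S.f r) ((S.cp.Z S.lf).indicator 1) z) y := by
    refine fib_mono (fun z => ?_) y
    have h4 := H654.fl_le_add_al hGd hc hG z
    by_cases hall : ∀ p ∈ S.lvs (i + 1) (r + 1), z ∉ p.Z
    · rw [H654.al_eq_ite, if_pos hall] at h4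
      refine (ENNReal.ofReal_le_ofReal ?_).trans (hGD z)
      linarith
    · push Not at hall
      obtain ⟨p, hp, hpz⟩ := hall
      obtain ⟨j, g1, g2, rfl⟩ := S.mem_lvs.mp hp
      rw [hkill z (S.Z_mono' (show j ≤ r by omega) hpz)]
      refine le_trans ?_ le_add_self
      rw [← ENNReal.ofReal_one]
      exact ENNReal.ofReal_le_ofReal (hU.le_one z)
  refine h3.trans ?_
  have hLL : L S.f i ≤ L S.f r := H118.L_mono S.f h2
  rw [H395.fib_add_right (H395.measurable_fib mZ), fib_tower hLL mZ]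
  refine add_le_add (le_of_eq ?_) ((S.fib_killed hk (h2.trans hr) hz).trans
    (ENNReal.ofReal_le_ofReal ?_))
  · have e1 : S.De r m = fib (L S.f r) ((S.X S.lf m)ᶜ.indicator 1) := by
      funext z
      exact S.De_eq m hr z
    show fib (L S.f i) (S.De r m) y = S.De i m y
    rw [e1, fib_tower hLL mX, S.De_eq m (h2.trans hr)]
  · have := S.cp.A_pos i y
    nlinarith

/-! ### the three masses of a label -/

/-- alive mass of a label which is not killed -/
lemma q_eq {c0 : ℝ} (hM : 0 ≤ S.M) (hc0 : (S.M + 1) * S.cp.b0 ≤ c0) {l : ℕ} (hl : l ≤ S.lf)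
    (m : ℕ) {x : E} (hx : x ∉ S.cp.Z l) :
    S.q l m x = ENNReal.ofReal (fr (L S.f l) (fun y => al (S.lvs (l + 1) S.d) y
      * (1 - ind (S.X S.lf m)ᶜ y)) x) := by
  have hG := S.good_lvs hM hc0 (l + 1) S.d
  have hX := S.measurableSet_X S.lf m
  have hd := S.d_eq
  have hal := H654.al_UI hG
  have hb : Bd fun y => al (S.lvs (l + 1) S.d) y * (1 - ind (S.X S.lf m)ᶜ y) :=
    (Bd.of_UI hal).mul ((Bd.const 1).sub (Bd.of_UI (ind_UI hX.compl)))
  rw [H654.ofReal_fr hb (fun y => mul_nonneg (hal.nonneg y)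
    (by linarith [ind_le_one (S.X S.lf m)ᶜ y]))]
  unfold q fib
  refine lintegral_congr fun z => ?_
  set y := mix (L S.f l) x z with hy
  have hyl : y ∉ S.cp.Z l := by
    have h1 := (S.inv_indZ l).mix x z
    rw [indicator_of_notMem hx] at h1
    intro hcon
    rw [← hy, indicator_of_mem hcon] at h1
    simp at h1
  show (S.Kq m).indicator 1 y = ENNReal.ofReal (al (S.lvs (l + 1) S.d) y
    * (1 - ind (S.X S.lf m)ᶜ y))
  rw [one_sub_ind_compl, H654.al_eq_ite]
  by_cases hall : ∀ p ∈ S.lvs (l + 1) S.d, y ∉ p.Z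
  · rw [if_pos hall, one_mul, ofReal_ind]
    have hyZ : y ∉ S.cp.Z S.lf := by
      rcases Nat.eq_or_lt_of_le hl with h | h
      · rw [← h]; exact hyl
      · exact hall (S.lev S.lf) (S.mem_lvs.mpr ⟨S.lf, by omega, by omega, rfl⟩)
    unfold iw Kq
    by_cases hyX : y ∈ S.X S.lf m
    · rw [indicator_of_mem hyX, indicator_of_mem (show y ∈ S.X S.lf m \ S.cp.Z S.lf from ⟨hyX, hyZ⟩)]
    · rw [indicator_of_notMem hyX,
        indicator_of_notMem (show y ∉ S.X S.lf m \ S.cp.Z S.lf from fun h => hyX h.1)]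
  · rw [if_neg hall, zero_mul, ENNReal.ofReal_zero]
    push Not at hall
    obtain ⟨p, hp, hpz⟩ := hall
    obtain ⟨j, g1, g2, rfl⟩ := S.mem_lvs.mp hp
    rw [indicator_of_notMem]
    rintro ⟨-, h⟩
    exact h (S.Z_mono' (show j ≤ S.lf by omega) hpz)

/-- visible plus hidden plus alive is one -/
lemma Fv_add {c0 : ℝ} (hM : 0 ≤ S.M) (hc0 : (S.M + 1) * S.cp.b0 ≤ c0) (hc : c0 ≤ 1 / 16) {l : ℕ}
    (hl : l ≤ S.lf) (m : ℕ) {x : E} (hx : x ∉ S.cp.Z l) :
    S.Fv l m x + fr (L S.f l) (S.hdn l m) x + (S.q l m x).toReal = 1 := by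
  have hG := S.good_lvs hM hc0 (l + 1) S.d
  have hX := S.measurableSet_X S.lf m
  have hal := H654.al_UI hG
  rw [S.q_eq hM hc0 hl m hx, ENNReal.toReal_ofReal (H654.fr_nonneg (fun y =>
    mul_nonneg (hal.nonneg y) (by linarith [ind_le_one (S.X S.lf m)ᶜ y])) x)]
  exact H654.fr_sum hG hc (ind_UI hX.compl) (L S.f l) x

end Vale.Agent.P262.M1.Sys
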