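import Vale.Agent.P262.H59.R12

/-!
# P262, milestone 1: (G1), counted loss against counted gain of a star move
-/

set_option linter.all false

open MeasureTheory ProbabilityTheory Set
open scoped ENNReal RealInnerProductSpace
open Vale.Agent.P262.H118 (L Iv st en ONB K1 rotE ON tau)
open Vale.Agent.P262.H395 (fib mix Inv Fixes fib_mono fib_tower fib_le_one fib_eq_self fib_add
  lintegral_fib GoodF regF frzF Om star_step)
open Vale.Agent.P262.H493 (star)
open Vale.Agent.P262.H654 (Lev fl vis wt kt al hid nk fr InvR Good LevOK Bd)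
open Vale.Agent.P262.H847 (UI)

namespace Vale.Agent.P262.H59

lemma gaussianReal_le_volume : gaussianReal 0 1 ≤ (volume : Measure ℝ) := by
  rw [gaussianReal_of_var_ne_zero 0 one_ne_zero]
  refine (withDensity_mono (Filter.Eventually.of_forall fun x => ?_)).trans_eq withDensity_one
  show gaussianPDF 0 1 x ≤ 1
  unfold gaussianPDF gaussianPDFReal
  rw [← ENNReal.ofReal_one]
  apply ENNReal.ofReal_le_ofReal
  have h1 : Real.exp (-(x - 0) ^ 2 / (2 * ((1 : NNReal) : ℝ))) ≤ 1 := by
    rw [Real.exp_le_one_iff]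
    have : 0 ≤ (x - 0) ^ 2 := sq_nonneg _
    have h2 : (0 : ℝ) < 2 * ((1 : NNReal) : ℝ) := by norm_num
    rw [div_le_iff₀ h2]
    linarith
  have h2 : (1 : ℝ) ≤ √(2 * Real.pi * ((1 : NNReal) : ℝ)) := by
    rw [Real.one_le_sqrt]
    have := Real.pi_gt_three
    norm_num
    linarith
  have h3 : (√(2 * Real.pi * ((1 : NNReal) : ℝ)))⁻¹ ≤ 1 := inv_le_one_of_one_le₀ h2
  exact mul_le_one₀ h3 (Real.exp_pos _).le h1

variable {E : Type*} [NormedAddCommGroup E] [InnerProductSpace ℝ E] [FiniteDimensional ℝ E]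
  [MeasurableSpace E] [BorelSpace E]

/-- the points lost by the star operation have small measure -/
lemma lost_le {K : Set E} (hK : IsClosed K) {R : ℝ} (hKR : K ⊆ Metric.closedBall 0 R) {v : E}
    (hv : v ≠ 0) : stdGaussian E (K \ star K v) ≤ ENNReal.ofReal (4 * ‖v‖) := by
  have hn : 0 < ‖v‖ := norm_pos_iff.mpr hv
  have hm := hK.measurableSet.diff (measurableSet_star hK hKR hv)
  have h1 : ∫⁻ x, fib (Hp v) ((K \ star K v).indicator 1) x ∂stdGaussian E
      = stdGaussian E (K \ star K v) := by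
    rw [lintegral_fib (measurable_one.indicator hm), lintegral_indicator_one hm]
  rw [← h1]
  have h2 : ∀ x, fib (Hp v) ((K \ star K v).indicator 1) x ≤ ENNReal.ofReal (4 * ‖v‖) := by
    intro x
    rw [fib_line hv hm]
    set e : E := (‖v‖⁻¹ : ℝ) • v with he
    set q : E := (Hp v).starProjection x with hq
    by_cases hne : {r : ℝ | q + r • e ∈ K \ star K v} = ∅
    · rw [hne]; simp
    obtain ⟨r0, hr0⟩ := nonempty_iff_ne_empty.mpr hne
    have hsub : {r : ℝ | q + r • e ∈ K \ star K v} ⊆ Icc (r0 - 2 * ‖v‖) (r0 + 2 * ‖v‖) := by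
      intro r hr
      by_contra hcon
      have hfar : 2 * ‖v‖ < |r - r0| := by
        by_contra h3
        rw [not_lt, abs_le] at h3
        exact hcon ⟨by linarith, by linarith⟩
      apply hr0.2
      have h4 : r0 ∈ {r : ℝ | q + r • e ∈ star K v} := by
        rw [line_star hv q, ← he]
        rcases lt_abs.mp hfar with h5 | h5
        · exact ⟨r0, hr0.1, r, hr.1, by linarith, by linarith, by linarith⟩
        · exact ⟨r, hr.1, r0, hr0.1, by linarith, by linarith, by linarith⟩
      exact h4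
    refine (measure_mono hsub).trans ((gaussianReal_le_volume _).trans (le_of_eq ?_))
    rw [Real.volume_Icc]
    congr 1
    ring
  refine (lintegral_mono h2).trans ?_
  simp

end Vale.Agent.P262.H59

namespace Vale.Agent.P262.M1.Sys

variable {E : Type*} [NormedAddCommGroup E] [InnerProductSpace ℝ E] [FiniteDimensional ℝ E]
  [MeasurableSpace E] [BorelSpace E] (S : Sys E)

lemma L_le_Hp {m : ℕ} (hm : m < S.mT) {i : ℕ} (hi : i ≤ S.lf) :
    L S.f i ≤ H59.Hp (S.word S.lf m) := by
  have hd := S.d_eq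
  have h1 := S.word_mem hm (i := S.lf) (by omega)
  intro w hw
  unfold H59.Hp
  rw [Submodule.mem_orthogonal_singleton_iff_inner_left]
  exact (Submodule.mem_orthogonal _ _).mp h1 w (H118.L_mono S.f hi hw)

/-- the leaf label space is the hyperplane orthogonal to the word -/
lemma Hp_word (hδ : 0 < S.δ) {m : ℕ} (hm : m < S.mT) :
    H59.Hp (S.word S.lf m) = L S.f S.lf := by
  have hd := S.d_eq
  refine (Submodule.eq_of_le_of_finrank_eq (S.L_le_Hp hm le_rfl) ?_).symm
  have h1 := S.hf.finrank_perp S.hd (i := S.lf) (by omega)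
  have h2 := (L S.f S.lf).finrank_add_finrank_orthogonal
  have h3 := (ℝ ∙ (S.word S.lf m)).finrank_add_finrank_orthogonal
  have h4 : S.word S.lf m ≠ 0 := by
    rw [← norm_ne_zero_iff, S.norm_word hm]
    exact hδ.ne'
  rw [finrank_span_singleton h4] at h3
  have hd' := S.hd
  unfold H59.Hp
  omega

/-- the line condition at a counted leaf label -/
lemma onLine_of_om (hM : 2 ≤ S.M) (hδ : 0 < S.δ) {m : ℕ} (hm : m < S.mT) (hst : S.IsStar m)
    {x : E} (hx : x ∈ S.om S.lf m) :
    H59.OnLine (S.X S.lf m) (S.word S.lf m) S.R (1 / 8) 1 x := by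
  obtain ⟨hz, h⟩ := hx
  have hHp := S.Hp_word hδ hm
  have hXs := S.X_star hst hm S.lf
  unfold H59.OnLine
  have hpr : ∀ {W W' : Submodule ℝ E}, W = W' → W.starProjection x = W'.starProjection x := by
    rintro W W' rfl; rfl
  rw [hpr hHp, hHp, ← hXs]
  have hsB : S.sB S.lf m = m := by unfold sB; rw [if_pos rfl, if_pos hst]
  have heB : S.eB S.lf m = m + 1 := by unfold eB; rw [if_pos rfl, if_pos hst]
  rw [hsB, heB] at h
  have hA := S.cp.A_pos S.lf x
  have hlf : ENNReal.ofReal (Real.exp (-(1 / 8 * (S.R ^ 2 - ‖(L S.f S.lf).starProjection x‖ ^ 2) - 1)))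
      ≤ ENNReal.ofReal (S.cp.A S.lf x) := ENNReal.ofReal_le_ofReal (S.cp.leaf x hz)
  refine hlf.trans ?_
  have e1 : ∀ k, fib (L S.f S.lf) ((S.X S.lf k)ᶜ.indicator 1) x = S.De S.lf k x := fun k => rfl
  rw [e1, e1]
  rcases h with h | ⟨k, h1, h2, h3⟩
  · exact h.trans (le_max_right _ _)
  · have hk : k = m := by omega
    subst hk
    have h4 : S.Dc S.lf k x ≤ S.De S.lf k x + S.De S.lf (k + 1) x := by
      unfold Dc De
      rw [← fib_add (measurable_one.indicator (S.measurableSet_X S.lf k).compl)]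
      refine fib_mono (fun y => ?_) x
      by_cases h5 : y ∈ S.X S.lf k
      · by_cases h6 : y ∈ S.X S.lf (k + 1)
        · rw [indicator_of_notMem (fun h : y ∈ (S.X S.lf k ∩ S.X S.lf (k + 1))ᶜ => h ⟨h5, h6⟩)]
          exact zero_le
        · rw [indicator_of_mem (show y ∈ (S.X S.lf (k + 1))ᶜ from h6)]
          exact (indicator_le_self' (fun _ _ => zero_le_one) y).trans le_add_self
      · rw [indicator_of_mem (show y ∈ (S.X S.lf k)ᶜ from h5)]
        exact (indicator_le_self' (fun _ _ => zero_le_one) y).trans le_self_add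
    have h5 : 2 * ENNReal.ofReal (S.cp.A S.lf x)
        ≤ 2 * max (S.De S.lf k x) (S.De S.lf (k + 1) x) := by
      calc 2 * ENNReal.ofReal (S.cp.A S.lf x) = ENNReal.ofReal (2 * S.cp.A S.lf x) := by
            rw [ENNReal.ofReal_mul (by norm_num)]; norm_num
        _ ≤ ENNReal.ofReal (S.M * S.cp.A S.lf x) :=
            ENNReal.ofReal_le_ofReal (mul_le_mul_of_nonneg_right hM hA.le)
        _ ≤ S.Dc S.lf k x := h3
        _ ≤ S.De S.lf k x + S.De S.lf (k + 1) x := h4
        _ ≤ 2 * max (S.De S.lf k x) (S.De S.lf (k + 1) x) := by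
            rw [two_mul]
            exact add_le_add (le_max_left _ _) (le_max_right _ _)
    exact (ENNReal.mul_le_mul_iff_right (by norm_num) (by norm_num)).mp h5

/-- **(G1)** -/
theorem G1_of (hM : 2 ≤ S.M) (hk : S.cp.kap ≤ 1) (hb : (S.M + S.cp.kap) * S.cp.b0 ≤ 1 / 5)
    (hδ : 0 < S.δ) (hδ' : S.δ ≤ 1 / 19200) : S.G1 := by
  intro m hm hst hh
  have hd := S.d_eq
  have hR1 := S.R1_of (by linarith) hk hb
  set v := S.word S.lf m with hv
  have hnv : ‖v‖ = S.δ := S.norm_word hm S.lf
  have hv0 : v ≠ 0 := by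
    rw [← norm_ne_zero_iff, hnv]; exact hδ.ne'
  set K := S.X S.lf m with hK
  have hXs : S.X S.lf (m + 1) = star K v ∩ Metric.closedBall 0 S.R := S.X_star hst hm S.lf
  have hKc := S.isClosed_X S.lf m
  have hKR := S.X_subset_ball S.lf m
  let F : Fin S.d → H395.Lv E := fun i => ⟨L S.f i, S.om i m, S.cp.Z i⟩
  have hF : GoodF F v := by
    refine ⟨fun i j h => H118.L_mono S.f h, fun i => S.L_le_Hp hm (by have := i.2; omega),
      fun i => H502.measurableSet_om S i m, fun i x w hw => H502.cyl_om S i m x w hw,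
      fun i x w hw => S.cp.Z_cyl i x w hw, fun i => S.cp.Z_closed i, fun i => S.cp.Z_convex i⟩
  have hfrz : frzF F = (S.cp.Z S.lf)ᶜ := by
    ext x
    simp only [frzF, mem_setOf_eq, mem_compl_iff]
    constructor
    · intro h
      exact h ⟨S.lf, by omega⟩
    · intro h i hi
      exact h (S.Z_mono' (show (i : ℕ) ≤ S.lf by have := i.2; omega) hi)
  have hreg : regF F = S.OM S.lf m := by
    ext x
    simp only [regF, OM, mem_setOf_eq]
    constructor
    · intro h i hi
      exact (h ⟨i, by omega⟩).1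
    · intro h i
      have := h i (by have := i.2; omega)
      exact ⟨this, this.1⟩
  have hdeep : ∀ i, ∀ x, x ∉ (F i).om → (∀ j ≤ i, x ∉ (F j).Z) → ENNReal.ofReal (4 / 5) ≤
      fib (F i).W ((star K v ∩ frzF F).indicator 1) x := by
    intro i x hx hz
    obtain ⟨a1, a2⟩ := S.move_mem hm.le (Or.inl hst) i
    refine (hR1 i m (m + 1) x i.2 hm.le ⟨by omega, a2⟩ (hz i le_rfl) hx).trans ?_
    refine fib_mono (fun y => indicator_le_indicator_of_subset ?_ (fun _ => zero_le) y) x
    rintro y ⟨hy1, hy2⟩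
    rw [hXs] at hy1
    rw [hfrz]
    exact ⟨hy1.1, hy2⟩
  have hroot : ENNReal.ofReal (2 / 3) ≤ stdGaussian E (star K v ∩ frzF F) := by
    have h1 := H59.lost_le hKc hKR hv0
    unfold Healthy at hh
    have h2 : stdGaussian E (S.Kq m) ≤ stdGaussian E (star K v ∩ frzF F)
        + stdGaussian E (K \ star K v) := by
      refine (measure_mono ?_).trans (measure_union_le _ _)
      rintro y ⟨hy1, hy2⟩
      by_cases hy : y ∈ star K v
      · left; rw [hfrz]; exact ⟨hy, hy2⟩
      · right; exact ⟨hy1, hy⟩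
    have h3 : ENNReal.ofReal (4 / 5) ≤ stdGaussian E (star K v ∩ frzF F)
        + ENNReal.ofReal (1 / 100) := by
      refine (hh.trans h2).trans (add_le_add le_rfl (h1.trans (ENNReal.ofReal_le_ofReal ?_)))
      rw [hnv]; linarith
    have h4 : ENNReal.ofReal (2 / 3) + ENNReal.ofReal (1 / 100)
        ≤ stdGaussian E (star K v ∩ frzF F) + ENNReal.ofReal (1 / 100) := by
      refine le_trans ?_ h3
      rw [← ENNReal.ofReal_add (by norm_num) (by norm_num)]
      exact ENNReal.ofReal_le_ofReal (by norm_num)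
    exact (ENNReal.add_le_add_iff_right ENNReal.ofReal_ne_top).mp h4
  have key := star_step hKc (S.convex_X S.lf m) hv0 (by rw [hnv]; linarith) hKR hF hdeep hroot
    (p := 1 / 8) (Lam := 1) (by norm_num) (by norm_num) le_rfl (fun x hx => by
      rw [hreg] at hx
      exact S.onLine_of_om hM hδ hm hst (hx S.lf le_rfl))
  have e1 : ∀ s : Set E, (∫⁻ x, Om F x * s.indicator 1 x ∂stdGaussian E)
      = ∫⁻ x, iw (S.OM S.lf m) x * iw s x ∂stdGaussian E := by
    intro s
    unfold Om iw
    rw [hreg]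
  rw [e1, e1, ← hXs] at key
  unfold loss gain
  refine key.trans ?_
  have e2 : ∀ g : ℝ≥0∞, g / 8 = ENNReal.ofReal (1 / 8) * g := by
    intro g
    rw [ENNReal.div_eq_inv_mul, one_div, ENNReal.ofReal_inv_of_pos (by norm_num)]
    norm_num
  rw [e2]
  refine mul_le_mul_left (ENNReal.ofReal_le_ofReal ?_) _
  rw [hnv]
  linarith

end Vale.Agent.P262.M1.Sys
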