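import Vale.Agent.P262.H59.R12

/-!
# P262, milestone 1: the hidden mass of a label, against its cap and against its alive mass
-/

set_option linter.all false

open MeasureTheory ProbabilityTheory Set
open scoped ENNReal RealInnerProductSpace
open Vale.Agent.P262.H118 (L Iv st en ONB K1 rotE ON tau)
open Vale.Agent.P262.H395 (fib mix Inv Fixes fib_mono)
open Vale.Agent.P262.H654 (Lev fl vis wt kt al hid nk fr InvR Good LevOK Bd)
open Vale.Agent.P262.H847 (UI)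
open Vale.Agent.P262.H852 (sl)

namespace Vale.Agent.P262.M1.Sys

variable {E : Type*} [NormedAddCommGroup E] [InnerProductSpace ℝ E] [FiniteDimensional ℝ E]
  [MeasurableSpace E] [BorelSpace E] (S : Sys E)

lemma good_lvs' {c0 : ℝ} (hM : 0 ≤ S.M) (hc0 : (S.M + 1) * S.cp.b0 ≤ c0) {l : ℕ} (hl : l ≤ S.lf) :
    Good c0 (S.lev l :: S.lvs (l + 1) S.d) := by
  have hd := S.d_eq
  have := S.good_lvs hM hc0 l S.d
  rwa [S.lvs_cons (by omega)] at this

/-- the cap of the next level, in real form -/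
lemma fr_child {l : ℕ} (hM : 0 ≤ S.M) {c0 : ℝ} (hc0 : (S.M + 1) * S.cp.b0 ≤ c0) (hl : l < S.d)
    {x : E} (hx : x ∉ S.cp.Z l) :
    fr (L S.f l) (fun y => nk (S.lev (l + 1)) y * (S.lev (l + 1)).c y) x
      ≤ S.cp.kap * (S.lev l).c x := by
  have hq := S.levOK hM hc0 (l + 1)
  have hk0 := S.cp.kap_pos
  have hA0 := S.cp.A_pos l x
  have hb := H654.nkc_Bd hq
  have h0 : ∀ y, 0 ≤ nk (S.lev (l + 1)) y * (S.lev (l + 1)).c y := fun y =>
    mul_nonneg (H654.nk_nonneg _ _) (hq.nonneg y)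
  have hpos : 0 ≤ S.cp.kap * (S.lev l).c x :=
    mul_nonneg hk0.le (mul_nonneg (by linarith) hA0.le)
  rw [← ENNReal.ofReal_le_ofReal_iff hpos, H654.ofReal_fr hb h0]
  have h1 : fib (L S.f l) (fun y => ENNReal.ofReal
      (nk (S.lev (l + 1)) y * (S.lev (l + 1)).c y)) x
      ≤ fib (L S.f l) (fun y => ENNReal.ofReal (S.M + 1)
        * (ENNReal.ofReal (S.cp.A (l + 1) y) + (S.cp.Z (l + 1)).indicator 1 y)) x := by
    refine fib_mono (fun y => ?_) x
    have hA := S.cp.A_pos (l + 1) y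
    have h2 : nk (S.lev (l + 1)) y * (S.lev (l + 1)).c y ≤ (S.M + 1) * S.cp.A (l + 1) y := by
      show nk (S.lev (l + 1)) y * ((S.M + 1) * S.cp.A (l + 1) y) ≤ _
      have h3 : 0 ≤ (S.M + 1) * S.cp.A (l + 1) y := mul_nonneg (by linarith) hA.le
      have := H654.nk_le_one (S.lev (l + 1)) y
      nlinarith
    refine (ENNReal.ofReal_le_ofReal h2).trans ?_
    rw [ENNReal.ofReal_mul (by linarith)]
    exact mul_le_mul_right le_self_add _
  refine h1.trans ?_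
  have hm : Measurable fun y => ENNReal.ofReal (S.cp.A (l + 1) y)
      + (S.cp.Z (l + 1)).indicator (1 : E → ℝ≥0∞) y :=
    (S.cp.A_meas (l + 1)).ennreal_ofReal.add
      (measurable_one.indicator (S.measurableSet_Z (l + 1)))
  rw [H395.fib_mul (H395.inv_const _ _) hm]
  refine (mul_le_mul_right (S.cp.child l hl x hx) _).trans (le_of_eq ?_)
  rw [← ENNReal.ofReal_mul (by linarith)]
  congr 1
  show (S.M + 1) * (S.cp.kap * S.cp.A l x) = S.cp.kap * ((S.M + 1) * S.cp.A l x)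
  ring

lemma caps_lvs (hM : 0 ≤ S.M) {c0 : ℝ} (hc0 : (S.M + 1) * S.cp.b0 ≤ c0) (n l : ℕ)
    (hn : l + n < S.d) : H654.Caps S.cp.kap (S.lev l) ((List.range' (l + 1) n).map S.lev) := by
  induction n generalizing l with
  | zero =>
    rw [List.range'_zero, List.map_nil]
    unfold H654.Caps
    trivial
  | succ n ih =>
    have h1 : ∀ x, x ∉ (S.lev l).Z → fr (S.lev l).W
        (fun y => nk (S.lev (l + 1)) y * (S.lev (l + 1)).c y) x
        ≤ S.cp.kap * (S.lev l).c x := fun x hx => S.fr_child hM hc0 (by omega) hx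
    have h2 := ih (l + 1) (by omega)
    rw [List.range'_succ, List.map_cons, H654.Caps]
    exact ⟨h1, h2⟩

/-- **hidden mass against the cap** -/
theorem hdn_le_cap (hM : 0 ≤ S.M) {c0 : ℝ} (hc0 : (S.M + 1) * S.cp.b0 ≤ c0) (hc : c0 ≤ 1 / 16)
    (hk : S.cp.kap ≤ 1 / 2) {l : ℕ} (hl : l ≤ S.lf) (m : ℕ) {x : E} (hx : x ∉ S.cp.Z l) :
    fr (L S.f l) (S.hdn l m) x ≤ 2 * S.cp.kap * ((S.M + 1) * S.cp.A l x) := by
  have hd := S.d_eq
  have hG := S.good_lvs' hM hc0 hl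
  have hcap : H654.Caps S.cp.kap (S.lev l) (S.lvs (l + 1) S.d) := by
    unfold lvs
    exact S.caps_lvs hM hc0 _ l (by omega)
  have hxp : x ∉ (S.lev l).Z := hx
  have h := H654.fr_hid_le_caps (p := S.lev l) (L := S.lvs (l + 1) S.d)
    (g := ind (S.X S.lf m)ᶜ) (k := S.cp.kap) (x := x) S.cp.kap_pos.le hk hG hc
    (ind_UI (S.measurableSet_X S.lf m).compl) hcap hxp
  exact h

/-- **hidden mass against the alive mass** -/
theorem hdn_le_q (hM : 0 ≤ S.M) {c0 : ℝ} (h0 : 0 ≤ c0) (hc0 : (S.M + 1) * S.cp.b0 ≤ c0)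
    (hc : c0 ≤ 1 / 16) (hlen : 4 * (S.d : ℝ) * c0 ≤ 1) {l : ℕ} (hl : l ≤ S.lf) (m : ℕ) {x : E}
    (hx : x ∉ S.cp.Z l) :
    fr (L S.f l) (S.hdn l m) x ≤ 2 * S.d * c0 * (S.q l m x).toReal := by
  have hG := S.good_lvs hM hc0 (l + 1) S.d
  have hX := S.measurableSet_X S.lf m
  have hal := H654.al_UI hG
  have h0q : ∀ y, 0 ≤ al (S.lvs (l + 1) S.d) y * (1 - ind (S.X S.lf m)ᶜ y) := fun y =>
    mul_nonneg (hal.nonneg y) (by linarith [ind_le_one (S.X S.lf m)ᶜ y])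
  have hq0 := H654.fr_nonneg (W := L S.f l) h0q x
  rw [S.q_eq hM hc0 hl m hx, ENNReal.toReal_ofReal hq0]
  have hlen2 : ((S.lvs (l + 1) S.d).length : ℝ) ≤ S.d := by
    rw [S.length_lvs]
    exact_mod_cast Nat.sub_le _ _
  have h1 : 2 * ((S.lvs (l + 1) S.d).length : ℝ) * c0 ≤ 1 / 2 := by nlinarith
  refine (H654.fr_hid_le_alive hG h0 hc h1 (ind_UI hX.compl) (fun p hp => by
    obtain ⟨i, h2, h3, rfl⟩ := S.mem_lvs.mp hp
    exact H118.L_mono S.f (by omega)) x).trans ?_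
  apply mul_le_mul_of_nonneg_right _ hq0
  nlinarith

end Vale.Agent.P262.M1.Sys
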