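import Vale.Agent.P262.H941.BePt
import Vale.Agent.P262.H439.PayInt

/-!
# P262, milestone 2, THR0: the own directions of the levels above the start node

The node `q = c0 :: p` is rotated, `r` is a node below it, `i < |r| - |q|`: the own direction of the
level `|q| + i + 1` is a direction of the label space of `r`.  Inside the region of the labels of
class `≥ 1` the throughput is paid by the alive mass (`Pay`, lattice runs).
-/

set_option linter.all false

open MeasureTheory ProbabilityTheory Set
open scoped ENNReal RealInnerProductSpace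
open Vale.Agent.P262.H118 (Iv st en ON rotE rotL tau wd wrd Mg Piece K2 El2 paths lyd nv sg la
  norm_nv nv_mem mem_sg inner_mix_label lyd_zero)
open Vale.Agent.P262.H395 (fib mix Inv inv_fib measurable_fib fib_mono)

namespace Vale.Agent.P262.M2.Sys

open Vale.Agent.P262.H941 (measurable_fib_param tau_of_zero)
open Vale.Agent.P262.H439 (Pay pay_line cPay)
open Vale.Agent.P262.H431 (pt)

variable {E : Type*} [NormedAddCommGroup E] [InnerProductSpace ℝ E] [FiniteDimensional ℝ E]
  [MeasurableSpace E] [BorelSpace E] {S : Sys E}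

/-- the step of an own direction is a label function of every node below `q` -/
lemma stb_add {m : ℕ} {q : List ℕ} {θ : E} {b : List ℕ → E} (H : S.RotB m q θ b) (i : ℕ)
    {v : E} (hv : ⟪θ, v⟫ = 0) (y : E) (t : ℝ) : S.stb m i θ (y + t • v) = S.stb m i θ y := by
  unfold stb
  rw [inner_add_right, inner_smul_right, hv, mul_zero, add_zero]

/-- the payoff with the step frozen at the start label -/
lemma gO_freeze {m : ℕ} (hrot : S.mv.IsRot m) {q : List ℕ} (hq : S.mv.jj m = q) {θ : E}
    {b : List ℕ → E} (H : S.RotB m q θ b) (o : Bool) {ε : ℝ} {r : List ℕ} (hr : q <:+ r) {i : ℕ}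
    (hi : i < r.length - q.length) (n : ℕ) (x : E) :
    H711.tau (S.fam m) (S.gO m b θ q o ε i) n r x =
      H711.tau (S.fam m) (S.gq m o (sf1 q r i) univ (ε • nv (S.bo m b (sf1 q r i)))
        (S.stb m i θ x)) n r x := by
  obtain ⟨h1, h2, h3, h4⟩ := sf1_facts hr hi
  set s := sf1 q r i with hs
  set e : E := ε • nv (S.bo m b s) with he
  have e1 : H711.tau (S.fam m) (S.gO m b θ q o ε i) n r x =
      H711.tau (S.fam m) (fun r y => S.gq m o s univ e (S.stb m i θ y) r y) n r x := by
    refine H837.tau_congr_of (Q := fun _ r' => r <:+ r')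
      (fun k r' x hr' _ => hr'.trans (List.suffix_cons _ _)) ?_ n r List.suffix_rfl x
    intro r' hr' y
    have hqr : q <:+ r' := hr.trans hr'
    have hsf : sf1 q r' i = s := by
      have hlen := hr.length_le
      have hlen' := hr'.length_le
      have h5 : s = r'.drop (r'.length - s.length) := List.suffix_iff_eq_drop.1 (h3.trans hr')
      rw [h5, h4]
      unfold sf1
      congr 1
      omega
    have h6 := mu_lyd_eq (S := S) hrot (s := s) (r := r') (hq ▸ h2) (h3.trans hr')
      (Submodule.smul_mem _ ε (nv_mem (bo_mem (S := S) (m := m) (b := b) (s := s))))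
      (S.stb m i θ y) o y
    show S.gO m b θ q o ε i r' y = _
    unfold gO
    rw [hsf]
    exact h6
  rw [e1]
  refine H837.tau_freeze (F := S.fam m) (u := fun y => S.stb m i θ y)
    (G := fun t r y => S.gq m o s univ e t r y) (P := fun r' => q <:+ r')
    (fun r' x hr' _ => hr'.trans (List.suffix_cons _ _)) ?_ n r hr x
  intro r' hr' y w hw
  have h7 : ⟪θ, w⟫ = (0:ℝ) := Submodule.inner_right_of_mem_orthogonal
    (S.W_mono hr' m H.mem) hw
  simp only [stb]
  rw [inner_add_right, h7, add_zero]

/-- **(O), levels above the start node**: the throughput in the own direction of the level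
`|q| + i + 1` at the labels of `r` in a region of class `≥ 1` is paid by the alive mass -/
theorem own_pay {m : ℕ} (hm : S.mv.tm m < S.T) (hrot : S.mv.IsRot m) (hth : S.th = 1 / 2)
    (hk : S.kq ≤ 1) {c0 : ℕ} {p : List ℕ} (hq : S.mv.jj m = c0 :: p) {θ : E} {b : List ℕ → E}
    (H : S.RotB m (c0 :: p) θ b) (o : Bool) {ε : ℝ} (hε : ε ∈ sg) {r : List ℕ}
    (hr : (c0 :: p) <:+ r) {i : ℕ} (hi : i < r.length - (c0 :: p).length) (n : ℕ)
    {K : Set E} (hK : IsCompact K) (hKc : Convex ℝ K) {R : ℝ} (hKR : K ⊆ Metric.closedBall 0 R)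
    {q0 a : ℝ} (hq0 : 100 ≤ q0) (ha0 : 0 ≤ a) (ha : a ≤ 1 / 16) {G : Set E}
    (hGm : MeasurableSet G) (hGc : ∀ e x : E, ‖e‖ = 1 → OrdConnected {t : ℝ | pt e x t ∈ G})
    (hGd : ∀ y ∈ G, 1 ≤ S.kl r m y)
    (hG : ∀ y ∈ G, ENNReal.ofReal (1 / 2) ≤ fib (S.W r m) (K.indicator 1) y) :
    Pay (S.W p m) (S.W r m) q0 a K
      (G.indicator (H711.tau (S.fam m) (S.gO m b θ (c0 :: p) o ε i) n r))
      (ENNReal.ofReal (32 * S.mv.ph m) * 2 ^ i * (12 * ENNReal.ofReal S.kq) ^ n *
        ENNReal.ofReal cPay) := by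
  have hph := S.mv.ph_nonneg m
  set q : List ℕ := c0 :: p with hqd
  obtain ⟨h1, h2, h3, h4⟩ := sf1_facts hr hi
  set s := sf1 q r i with hs
  set e : E := ε • nv (S.bo m b s) with he
  set τ : E → ℝ≥0∞ := H711.tau (S.fam m) (S.gO m b θ q o ε i) n r with hτ
  have hfr : ∀ x, τ x = H711.tau (S.fam m) (S.gq m o s univ e (S.stb m i θ x)) n r x :=
    gO_freeze hrot hq H o hr hi n
  -- trivial cases
  by_cases h0 : S.mv.ph m = 0 ∨ S.bo m b s = 0
  · have hz : ∀ x, τ x = 0 := by
      intro x
      rw [hfr]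
      refine tau_of_zero (fun r' y => gq_zero m o s ?_ r' y) n r x
      rcases h0 with h | h
      · unfold stb
        rw [h]
        simp
      · rw [he, h]
        simp [nv]
    intro l0 l' L W0 F hgd x0 hr0
    have e1 : (fun x => (Vale.Agent.P262.Cons493.avoid L).indicator (1 : E → ℝ≥0∞) x *
        (Vale.Agent.P262.H606.dw a (Vale.Agent.P262.H962.PB ((l0 ++ L.map Prod.fst) ++ l') q0) x *
          G.indicator τ x)) = fun _ => 0 := by
      funext x
      have : G.indicator τ x = 0 := by
        by_cases hx : x ∈ G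
        · rw [indicator_of_mem hx, hz]
        · exact indicator_of_notMem hx _
      rw [this, mul_zero, mul_zero]
    rw [e1, H395.fib_const]
    exact zero_le
  push Not at h0
  obtain ⟨hph0, hbo⟩ := h0
  have hphp : 0 < S.mv.ph m := lt_of_le_of_ne hph (Ne.symm hph0)
  have he1 : ‖e‖ = 1 := by
    rw [he, norm_smul, norm_nv hbo, mul_one]
    rcases mem_sg.1 hε with h1 | h1 <;> rw [h1] <;> simp
  have hes : e ∈ S.W s m := Submodule.smul_mem _ _ (nv_mem bo_mem)
  have her : e ∈ S.W r m := S.W_mono h3 m hes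
  have heq : e ∈ (S.W q m)ᗮ := by
    have h5 : e ∈ (S.W s.tail m)ᗮ := Submodule.smul_mem _ _ (nv_mem (V := (S.W s.tail m)ᗮ)
      (bo_perp (S := S) (m := m) (b := b) (s := s)))
    exact Submodule.orthogonal_le (S.W_mono h1 m) h5
  have hpq : S.W p m ≤ S.W q m := S.W_mono (List.suffix_cons c0 p) m
  have hep : e ∈ (S.W p m)ᗮ := Submodule.orthogonal_le hpq heq
  have hθe : ⟪θ, e⟫ = (0:ℝ) := Submodule.inner_right_of_mem_orthogonal H.mem heq
  have hθ1 : ‖θ‖ ≤ 1 := (H.on q List.suffix_rfl).hp.le
  have hθp : θ ∈ (S.W p m)ᗮ := H.perp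
  have hstep : ∀ (y : E) (t : ℝ), S.stb m i θ (y + t • e) = S.stb m i θ y :=
    fun y t => stb_add H i hθe y t
  have hpos : ∀ x, 0 < S.stb m i θ x := by
    intro x
    unfold stb
    have := abs_nonneg ⟪θ, x⟫
    positivity
  set B : ℝ≥0∞ := 4 * (12 * ENNReal.ofReal S.kq) ^ n with hB
  have hmτ : Measurable τ := H711.measurable_tau (S.fam_str hm q)
    (fun r' => gO_meas m b θ q o ε i r') n r
  -- the lattice runs
  have hrun : ∀ y (J : ℕ), (∀ j ≤ J, y + ((j : ℝ) * S.stb m i θ y) • e ∈ G) →
      ∑ j ∈ Finset.range (J + 1), τ (y + ((j : ℝ) * S.stb m i θ y) • e) ≤ B := by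
    intro y J hJ
    have h5 := star_good hm hrot hth hk o (q := s) (e := e) hes (L := univ) MeasurableSet.univ
      (fun y _ t => mem_univ _) (al := 1 / 2) (be := 0) (Or.inl ⟨rfl, rfl⟩)
      (S.stb_nonneg i θ y) n h3 y J
      (by
        have h6 := hGd _ (hJ 0 (Nat.zero_le _))
        simpa using h6)
      (hGd _ (hJ J le_rfl))
    rw [ENNReal.rpow_zero, mul_one] at h5
    refine le_trans (le_of_eq ?_) h5
    apply Finset.sum_congr rfl
    intro j _
    rw [hfr, hstep]
  have key := pay_line (V := S.W p m) (W := S.W r m) (q := q0) (a := a) (K := K) hK hKc hKR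
    (hpq.trans (S.W_mono hr m)) hq0 ha0 ha he1 her hep (b := θ) hθ1 hθp hθe (G := G) hGm
    (fun x => hGc e x he1) hG
    (τ := fun j => if j = 0 then τ else fun _ => 0) (B := fun j _ => if j = 0 then B else 0)
    (Q := fun j x => if j = 0 then ENNReal.ofReal (S.stb m i θ x) * B else 0)
    (h := fun _ x => S.stb m i θ x)
    (fun j => by
      split_ifs
      · exact hmτ
      · exact measurable_const)
    (fun j => by
      split_ifs
      · exact ((stb_cont m i θ).measurable.ennreal_ofReal).mul_const _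
      · exact measurable_const)
    (fun j x w hw => by
      dsimp only
      have h7 : ⟪θ, w⟫ = (0:ℝ) := Submodule.inner_right_of_mem_orthogonal
        (S.W_mono hr m H.mem) hw
      have h8 : S.stb m i θ (x + w) = S.stb m i θ x := by
        unfold stb
        rw [inner_add_right, h7, add_zero]
      rw [h8])
    (fun _ x => hpos x) (fun _ y t => hstep y t) (fun _ _ _ => rfl)
    (fun j y J hJ => by
      split_ifs with hj
      · exact hrun y J hJ
      · simp)
    (fun j y => by
      split_ifs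
      · exact le_rfl
      · simp)
    (C1 := ENNReal.ofReal (32 * S.mv.ph m) * 2 ^ i * (12 * ENNReal.ofReal S.kq) ^ n)
    (fun x => by
      rw [tsum_eq_single 0 (fun j hj => by simp [hj])]
      rw [if_pos rfl]
      have e2 : (2 : ℝ≥0∞) ^ i = ENNReal.ofReal (2 ^ i) := by
        rw [ENNReal.ofReal_pow (by norm_num), show ENNReal.ofReal 2 = 2 by norm_num]
      have e3 : ENNReal.ofReal (S.stb m i θ x) * 4 =
          ENNReal.ofReal (32 * S.mv.ph m) * 2 ^ i * ENNReal.ofReal (1 + |⟪θ, x⟫|) := by
        rw [e2, show (4 : ℝ≥0∞) = ENNReal.ofReal 4 by norm_num,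
          ← ENNReal.ofReal_mul (S.stb_nonneg i θ x), ← ENNReal.ofReal_mul (by positivity),
          ← ENNReal.ofReal_mul (by positivity)]
        congr 1
        unfold stb
        ring
      rw [hB]
      calc ENNReal.ofReal (S.stb m i θ x) * (4 * (12 * ENNReal.ofReal S.kq) ^ n)
          = (ENNReal.ofReal (S.stb m i θ x) * 4) * (12 * ENNReal.ofReal S.kq) ^ n := by ring
        _ = _ := by rw [e3]; ring
        _ ≤ _ := le_rfl)
  refine key.mono (fun x => ?_) le_rfl
  by_cases hx : x ∈ G
  · rw [indicator_of_mem hx, indicator_of_mem hx, tsum_eq_single 0 (fun j hj => by simp [hj])]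
    simp
  · rw [indicator_of_notMem hx]
    exact bot_le

end Vale.Agent.P262.M2.Sys
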