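import Vale.Agent.P262.H59.StarM
import Vale.Agent.P262.H752.StarF2
import Vale.Agent.P262.H44.L2Lbl
import Vale.Agent.P262.H713.CF1c

/-!
# P262, milestone 2: the star move seen by the field at one label (`StarAt` of helper44)

The field is the cut-off field of helper713 on a tree `t` of labels.
-/

set_option linter.all false

open MeasureTheory ProbabilityTheory Set
open scoped ENNReal RealInnerProductSpace
open Vale.Agent.P262.H395 (fib mix Inv measurable_fib fib_mono fib_const fib_add fib_mul inv_fib)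
open Vale.Agent.P262.H493 (star)
open Vale.Agent.P262.H654 (fr InvR Bd phi)
open Vale.Agent.P262.H847 (UI)
open Vale.Agent.P262.H852 (sl)
open Vale.Agent.P262.H941 (FluxLe)
open Vale.Agent.P262.H174 (Soft)
open Vale.Agent.P262.H44 (StarAt sf sf_UI)
open Vale.Agent.P262.H752 (ci ci_UI chR chR_UI chR_nonneg fib_ofReal)
open Vale.Agent.P262.H713 (FT)

namespace Vale.Agent.P262.H59

variable {E : Type*} [NormedAddCommGroup E] [InnerProductSpace ℝ E] [FiniteDimensional ℝ E]
  [MeasurableSpace E] [BorelSpace E] {ι : Type*}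

/-- **star move at a label**, from the line condition where the weight does not vanish. -/
theorem star_at {K : Set E} (hK : IsClosed K) (hKc : Convex ℝ K) {R : ℝ}
    (hKR : K ⊆ Metric.closedBall 0 R) {W : Submodule ℝ E} {v : Wᗮ} (hv : 0 < ‖v‖)
    (hv1 : ‖v‖ ≤ 1 / 10) {p Lam : ℝ} (hp0 : 0 ≤ p) (hp : p ≤ 1 / 4) (hLam : 1 ≤ Lam)
    {c0 : ℝ} (hc : c0 ≤ 1 / 16) {t : FT E ι} (ht : FT.Good c0 t) (hU : FT.Under (Hp (v : E)) t)
    (x : E) (hA : ∀ y, W.starProjection y = W.starProjection x →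
      FT.wt t (fun _ => ci K) y ≠ 0 → OnLine K v R p Lam y)
    {K' : Set E} (hK' : K' = star K v ∩ Metric.closedBall 0 R) :
    StarAt v (sf W x (FT.fl t fun _ => ci K)) (sf W x (FT.fl t fun _ => ci K'))
      (6 * fib W (fun y => ENNReal.ofReal (FT.wt t (fun _ => ci K) y * chR K K' y)
        + ENNReal.ofReal |FT.fl t (fun _ => ci K) y - FT.fl t (fun _ => ci K') y|) x) := by
  have hvE0 : (v : E) ≠ 0 := norm_pos_iff.mp hv
  have hSm := measurableSet_star hK hKR hvE0
  have hBm : MeasurableSet (Metric.closedBall (0 : E) R) := Metric.isClosed_closedBall.measurableSet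
  have hKm := hK.measurableSet
  have hKm' : MeasurableSet K' := by rw [hK']; exact hSm.inter hBm
  have u := FT.fl_UI ht hc (g := fun _ => ci K) (fun _ => ci_UI hKm)
  have u' := FT.fl_UI ht hc (g := fun _ => ci K') (fun _ => ci_UI hKm')
  have w := FT.wt_UI ht hc (g := fun _ => ci K) (fun _ => ci_UI hKm)
  have k := FT.kt_UI ht hc (g := fun _ => ci K) (fun _ => ci_UI hKm)
  have cu : UI (chR K K') := chR_UI hKm hKm'
  have wg : UI fun y => FT.wt t (fun _ => ci K) y * (K' \ K).indicator (fun _ => (1 : ℝ)) y :=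
    UI_mul_ind w (hKm'.diff hKm)
  have wl : UI fun y => FT.wt t (fun _ => ci K) y * (K \ K').indicator (fun _ => (1 : ℝ)) y :=
    UI_mul_ind w (hKm.diff hKm')
  have wc := H752.UI.mul w cu
  have wd := H752.UI.dist u u'
  obtain ⟨mf, F, a₁, a₂, hm, hF, h1, h2, hfl, h3, h4, h5⟩ := star_mid hK hKc hKR hv hv1 hp0 hp hLam
    w k (FT.wt_add_kt_le ht hc fun _ => ci_UI hKm) (FT.wt_inv ht hU _) (FT.kt_inv ht hU _) x
    (fun z hz => hA _ (H852.starProjection_sl W x z) hz) (f := FT.fl t fun _ => ci K)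
    (f' := FT.fl t fun _ => ci K') (fun y => FT.fl_eq t _ y) u'
  refine ⟨mf, F, a₁, 0, a₂, 0, hm, hfl, ?_, ?_, le_rfl, le_rfl, ?_⟩
  · exact (Soft.of_L1 (sf_UI W x u) hm).mono h3 le_rfl
  · exact (Soft.of_L1 hm (sf_UI W x u')).mono h4 le_rfl
  rw [← hK'] at h5
  set G : ℝ := fr W (fun y => FT.wt t (fun _ => ci K) y * (K' \ K).indicator (fun _ => (1 : ℝ)) y) x
    with hG
  set L : ℝ := fr W (fun y => FT.wt t (fun _ => ci K) y * (K \ K').indicator (fun _ => (1 : ℝ)) y) x
    with hL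
  have hG0 : 0 ≤ G := (H654.UI.fr wg W).nonneg x
  have hL0 : 0 ≤ L := (H654.UI.fr wl W).nonneg x
  have e1 : fr W (fun y => FT.wt t (fun _ => ci K) y * chR K K' y) x = G + L := by
    rw [hG, hL, ← H654.fr_add (Bd.of_UI wg) (Bd.of_UI wl)]
    congr 1
    funext y
    unfold chR
    ring
  have e2 : fr W (fun y => |FT.fl t (fun _ => ci K') y - FT.fl t (fun _ => ci K) y|) x
      = fr W (fun y => |FT.fl t (fun _ => ci K) y - FT.fl t (fun _ => ci K') y|) x := by
    congr 1
    funext y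
    exact abs_sub_comm _ _
  have hT0 : 0 ≤ fr W (fun y => |FT.fl t (fun _ => ci K) y - FT.fl t (fun _ => ci K') y|) x :=
    (H654.UI.fr wd W).nonneg x
  rw [e2] at h5
  have m1 : Measurable fun y => ENNReal.ofReal (FT.wt t (fun _ => ci K) y * chR K K' y) :=
    wc.meas.ennreal_ofReal
  rw [fib_add m1, fib_ofReal wc, fib_ofReal wd, e1, ← ENNReal.ofReal_add (by positivity) hT0,
    show (6 : ℝ≥0∞) = ENNReal.ofReal 6 by norm_num, ← ENNReal.ofReal_mul (by norm_num)]
  apply ENNReal.ofReal_le_ofReal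
  linarith

/-- at the last nodes (label space `v⊥`) the cut-off constant exceeds the rim -/
def RimF (v : E) (R p Lam : ℝ) : FT E ι → Prop
  | FT.leaf _ => True
  | FT.node W c Z _ T => (W = Hp v → ∀ x, x ∉ Z →
      Real.exp (-(p * (R ^ 2 - ‖(Hp v).starProjection x‖ ^ 2) - Lam)) ≤ c x) ∧ ∀ k, RimF v R p Lam (T k)

/-- **where the weight does not vanish the last line sees more than the rim** -/
theorem onLine_of_wtF {K : Set E} (hK : MeasurableSet K) {v : E} {R p Lam c0 : ℝ}
    (hc : c0 ≤ 1 / 16) : ∀ {t : FT E ι} {W0 : Submodule ℝ E} (_ : FT.Good c0 t)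
    (_ : FT.Last (fun V _ => V = Hp v) W0 t) (_ : RimF v R p Lam t) {y : E}
    (_ : FT.wt t (fun _ => ci K) y ≠ 0), (∃ i, t = FT.leaf i) ∨ OnLine K v R p Lam y := by
  intro t
  induction t with
  | leaf i => exact fun _ _ _ _ _ => Or.inl ⟨i, rfl⟩
  | node W c Z cls T ih =>
    intro W0 hG hl hr y hy
    right
    obtain ⟨hp, hab, hk⟩ := hG
    rw [FT.wt_node] at hy
    by_cases hz : y ∈ Z
    · rw [if_pos hz] at hy
      exact absurd rfl hy
    rw [if_neg hz] at hy
    have h1 := left_ne_zero_of_mul hy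
    have h2 := right_ne_zero_of_mul hy
    rcases ih (cls y) (hk _) (hl (cls y)) (hr.2 _) h2 with ⟨i, hi⟩ | h
    · have hW : W = Hp v := by
        have h3 := hl (cls y)
        rw [hi] at h3
        exact h3
      have hv : FT.val W cls T (fun _ => ci K) y = fr W (ci K) y := by
        have e : FT.val W cls T (fun _ => ci K) y = fr W (FT.fl (T (cls y)) fun _ => ci K) y :=
          H713.fr_sel hp.icls (fun k => FT.fl (T k) fun _ => ci K) y
        rw [e, hi]
        rfl
      rw [hv] at h1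
      have h4 : c y < fr W (ci K) y := by
        by_contra hcon
        exact h1 (H654.phi_zero (not_lt.1 hcon))
      rw [hW] at h4
      exact onLine_of_cap hK (hr.1 hW y hz) h4.le
    · exact h

/-- **STAR at a label**, tree form: `t` is the tree of the children of a label which is not a
leaf label. -/
theorem star_at_node {K : Set E} (hK : IsClosed K) (hKc : Convex ℝ K) {R : ℝ}
    (hKR : K ⊆ Metric.closedBall 0 R) {W : Submodule ℝ E} {v : Wᗮ} (hv : 0 < ‖v‖)
    (hv1 : ‖v‖ ≤ 1 / 10) {p Lam : ℝ} (hp0 : 0 ≤ p) (hp : p ≤ 1 / 4) (hLam : 1 ≤ Lam)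
    {c0 : ℝ} (hc : c0 ≤ 1 / 16) {t : FT E ι} (ht : FT.Good c0 t) (hU : FT.Under (Hp (v : E)) t)
    (hl : FT.Last (fun V _ => V = Hp (v : E)) W t) (hr : RimF (v : E) R p Lam t)
    (hn : ∀ i, t ≠ FT.leaf i) (x : E)
    {K' : Set E} (hK' : K' = star K v ∩ Metric.closedBall 0 R) :
    StarAt v (sf W x (FT.fl t fun _ => ci K)) (sf W x (FT.fl t fun _ => ci K'))
      (6 * fib W (fun y => ENNReal.ofReal (FT.wt t (fun _ => ci K) y * chR K K' y)
        + ENNReal.ofReal |FT.fl t (fun _ => ci K) y - FT.fl t (fun _ => ci K') y|) x) :=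
  star_at hK hKc hKR hv hv1 hp0 hp hLam hc ht hU x (fun y _ hy => by
    rcases onLine_of_wtF hK.measurableSet hc ht hl hr hy with ⟨i, hi⟩ | h
    · exact absurd hi (hn i)
    · exact h) hK'

end Vale.Agent.P262.H59
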