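import Vale.Agent.P262.H59.StepG

/-!
# P262, milestone 2: the mid field of a star move, for an arbitrary weight

`f = w * 1_{K^c} + k` and `f'` arbitrary; gain `g`, loss `l` (weighted by `w`) and change `tau`.
-/

set_option linter.all false

open MeasureTheory ProbabilityTheory Set
open scoped ENNReal RealInnerProductSpace
open Vale.Agent.P262.H395 (fib mix Inv)
open Vale.Agent.P262.H493 (star)
open Vale.Agent.P262.H654 (fr InvR Bd)
open Vale.Agent.P262.H847 (UI)
open Vale.Agent.P262.H852 (sl)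
open Vale.Agent.P262.H941 (FluxLe)

namespace Vale.Agent.P262.H59

variable {E : Type*} [NormedAddCommGroup E] [InnerProductSpace ℝ E] [FiniteDimensional ℝ E]
  [MeasurableSpace E] [BorelSpace E]

lemma InvR_of_le {W W' : Submodule ℝ E} (h : W ≤ W') {f : E → ℝ} (hf : InvR W f) : InvR W' f :=
  hf.mono h

/-- **star move, arbitrary weight.** -/
theorem star_mid {K : Set E} (hK : IsClosed K) (hKc : Convex ℝ K) {R : ℝ}
    (hKR : K ⊆ Metric.closedBall 0 R) {W : Submodule ℝ E} {v : Wᗮ} (hv : 0 < ‖v‖)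
    (hv1 : ‖v‖ ≤ 1 / 10) {p Lam : ℝ} (hp0 : 0 ≤ p) (hp : p ≤ 1 / 4) (hLam : 1 ≤ Lam)
    {w k : E → ℝ} (hw : UI w) (hk : UI k) (hwk : ∀ x, w x + k x ≤ 1)
    (hwv : InvR (Hp (v : E)) w) (hkv : InvR (Hp (v : E)) k) (x : E)
    (hA : ∀ z : Wᗮ, w (sl W x z) ≠ 0 → OnLine K v R p Lam (sl W x z)) {f f' : E → ℝ}
    (hf : ∀ y, f y = w y * Kᶜ.indicator (fun _ => (1 : ℝ)) y + k y) (hf' : UI f') :
    ∃ mf : Wᗮ → ℝ, ∃ F a₁ a₂ : ℝ, UI mf ∧ 0 ≤ F ∧ 0 ≤ a₁ ∧ 0 ≤ a₂ ∧ FluxLe mf v F ∧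
      ∫ z, |mf z - f (sl W x z)| ∂stdGaussian Wᗮ ≤ a₁ ∧
      ∫ z, |f' (sl W x z) - mf z| ∂stdGaussian Wᗮ ≤ a₂ ∧
      F + a₁ + a₂ ≤
        6 * fr W (fun y => w y * ((star K v ∩ Metric.closedBall 0 R) \ K).indicator
            (fun _ => (1 : ℝ)) y) x
        + 2 * fr W (fun y => w y * (K \ (star K v ∩ Metric.closedBall 0 R)).indicator
            (fun _ => (1 : ℝ)) y) x
        + fr W (fun y => |f' y - f y|) x := by
  have hvE0 : (v : E) ≠ 0 := norm_pos_iff.mp hv
  have hSm := measurableSet_star hK hKR hvE0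
  have hBm : MeasurableSet (Metric.closedBall (0 : E) R) := Metric.isClosed_closedBall.measurableSet
  set K' : Set E := star K v ∩ Metric.closedBall 0 R with hK'
  have hK'm : MeasurableSet K' := hSm.inter hBm
  have hKm := hK.measurableSet
  have hfU : UI f := by
    have e : f = fun y => w y * Kᶜ.indicator (fun _ => (1 : ℝ)) y + k y := funext hf
    rw [e]
    have h1 := UI_mul_ind hw hKm.compl
    refine ⟨h1.meas.add hk.meas, fun y => add_nonneg (h1.nonneg y) (hk.nonneg y), fun y => ?_⟩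
    have h2 : w y * Kᶜ.indicator (fun _ => (1 : ℝ)) y ≤ w y := by
      by_cases hy : y ∈ Kᶜ
      · rw [indicator_of_mem hy, mul_one]
      · rw [indicator_of_notMem hy, mul_zero]; exact hw.nonneg y
    linarith [hwk y]
  obtain ⟨fh, hfhU, hfl, h1, h2⟩ := step_field' hK hKc hKR hv hv1 hp0 hp hLam hw hk
    hwk (const_of_invR hwv) (const_of_invR hkv) x hA
    (f := fun z => f (sl W x z)) (f' := fun z => f' (sl W x z))
    (fun z => by
      show f (sl W x z) = _
      rw [hf]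
      congr 2) (UI_slice W x hf')
  set Gn : ℝ := fm W x w (K' \ K) with hGn
  set Ls : ℝ := fm W x w (K \ K') with hLs
  have hGn0 : 0 ≤ Gn := fm_nonneg _ _ _ _
  have hLs0 : 0 ≤ Ls := fm_nonneg _ _ _ _
  have e1 : fr W (fun y => w y * (K' \ K).indicator (fun _ => (1 : ℝ)) y) x = Gn :=
    (fm_eq_fr hw (hK'm.diff hKm) W x).symm
  have e2 : fr W (fun y => w y * (K \ K').indicator (fun _ => (1 : ℝ)) y) x = Ls :=
    (fm_eq_fr hw (hKm.diff hK'm) W x).symm
  have hU : UI fun y => |f' y - f y| := by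
    refine ⟨(hf'.meas.sub hfU.meas).abs, fun y => abs_nonneg _, fun y => ?_⟩
    rw [abs_le]
    exact ⟨by linarith [hf'.nonneg y, hfU.le_one y], by linarith [hf'.le_one y, hfU.nonneg y]⟩
  have e3 : ∫ z, |f' (sl W x z) - f (sl W x z)| ∂stdGaussian Wᗮ = fr W (fun y => |f' y - f y|) x :=
    fr_eq_integral hU W x
  have h3 : 0 ≤ fr W (fun y => |f' y - f y|) x := H654.fr_nonneg (fun y => abs_nonneg _) x
  rw [e1, e2]
  refine ⟨fh, 2 * Gn, 2 * Gn + Ls, fr W (fun y => |f' y - f y|) x + (2 * Gn + Ls), hfhU,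
    by positivity, by positivity, by positivity, hfl, h1, ?_, ?_⟩
  · rw [← e3]; exact h2
  · linarith

/-- the line condition from a leaf cap: `w y ≠ 0` implies that the dead mass of the line exceeds
the leaf cap -/
lemma onLine_of_cap {K : Set E} (hKm : MeasurableSet K) {v : E} {R p Lam : ℝ} {A : ℝ} {y : E}
    (hcap : Real.exp (-(p * (R ^ 2 - ‖(Hp v).starProjection y‖ ^ 2) - Lam)) ≤ A)
    (h : A ≤ fr (Hp v) (Kᶜ.indicator fun _ => (1 : ℝ)) y) : OnLine K v R p Lam y := by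
  apply onLine_of_le
  have hUI : UI (Kᶜ.indicator fun _ => (1 : ℝ)) := by
    have := UI_mul_ind (E := E) (w := fun _ => (1 : ℝ))
      ⟨measurable_const, fun _ => zero_le_one, fun _ => le_rfl⟩ hKm.compl
    simpa using this
  have h3 : ENNReal.ofReal (fr (Hp v) (Kᶜ.indicator fun _ => (1 : ℝ)) y)
      = fib (Hp v) (Kᶜ.indicator 1) y := by
    rw [H654.ofReal_fr (Bd.of_UI hUI) hUI.nonneg]
    congr 1
    funext z
    by_cases hz : z ∈ Kᶜ
    · simp [indicator_of_mem hz]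
    · simp [indicator_of_notMem hz]
  rw [← h3]
  exact ENNReal.ofReal_le_ofReal (hcap.trans h)

end Vale.Agent.P262.H59
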