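import Vale.Agent.P262.H59.Rim
import Vale.Agent.P262.H108.FluxGainLe
import Vale.Agent.P262.H852.Slice

/-!
# P262, milestone 1, block STEPF: the star step with the ball cut, seen by a weighted field

`K → C → K' = star K v ∩ B`; `w` a weight constant along `v` which vanishes on the lines where the
line condition `OnLine` fails. Everything is read in the fibre of a label `W`, i.e. in the type
`Wᗮ`, and bounded by fibre averages of the weighted gain and loss of the cut step.
-/

set_option linter.all false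

open MeasureTheory ProbabilityTheory Set Filter Topology
open scoped ENNReal RealInnerProductSpace

namespace Vale.Agent.P262.H59

open Vale.Agent.P262.H395 Vale.Agent.P262.H852
open Vale.Agent.P262.H493 (star)
open Vale.Agent.P262.H847 (UI)
open Vale.Agent.P262.H108 (wf UI_wf)
open Vale.Agent.P262.H941 (FluxLe)

variable {E : Type*} [NormedAddCommGroup E] [InnerProductSpace ℝ E] [FiniteDimensional ℝ E]
  [MeasurableSpace E] [BorelSpace E]

/-- adding a field which is constant along `v` does not change the flux -/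
lemma fluxLe_add {e k : E → ℝ} {v : E} {F : ℝ} (h : FluxLe e v F)
    (hk : ∀ x (t : ℝ), k (x + t • v) = k x) : FluxLe (fun x => e x + k x) v F := by
  intro ε hε
  refine (h ε hε).mono fun t ht => ?_
  refine le_trans (le_of_eq ?_) ht
  congr 1
  funext x
  simp only
  rw [hk]
  congr 1
  ring

lemma FluxLe.mono' {e : E → ℝ} {v : E} {F F' : ℝ} (h : FluxLe e v F) (hF : F ≤ F') :
    FluxLe e v F' := by
  intro ε hε
  refine ((h ε hε).and_eventually self_mem_nhdsWithin).mono fun t ht => ?_
  have h0 : 0 < t := ht.2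
  exact ht.1.trans (mul_le_mul_of_nonneg_right (by linarith) h0.le)

lemma le_Hp {W : Submodule ℝ E} (v : Wᗮ) : W ≤ Hp (v : E) := by
  intro x hx
  unfold Hp
  rw [Submodule.mem_orthogonal_singleton_iff_inner_left]
  exact (Submodule.mem_orthogonal W _).mp v.2 x hx

/-- weighted measure of a set in the fibre over `P_W x`, real valued -/
noncomputable def fm (W : Submodule ℝ E) (x : E) (w : E → ℝ) (S : Set E) : ℝ :=
  (fib W (fun y => ENNReal.ofReal (w y) * S.indicator 1 y) x).toReal

lemma fm_eq (W : Submodule ℝ E) (x : E) {w : E → ℝ} (hw : UI w) {S : Set E} (hS : MeasurableSet S) :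
    ∫ z, w (sl W x z) * (slice W x S).indicator 1 z ∂stdGaussian Wᗮ = fm W x w S := by
  unfold fm
  have hm : Measurable fun y => w y * S.indicator (1 : E → ℝ) y :=
    hw.meas.mul (measurable_one.indicator hS)
  have h0 : ∀ y, 0 ≤ w y * S.indicator (1 : E → ℝ) y := fun y =>
    mul_nonneg (hw.nonneg y) (indicator_nonneg (by simp) y)
  have h1 : ∀ y, w y * S.indicator (1 : E → ℝ) y ≤ 1 := by
    intro y
    by_cases hy : y ∈ S
    · rw [indicator_of_mem hy]
      simpa using hw.le_one y
    · rw [indicator_of_notMem hy]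
      simp
  have hi : Integrable (fun z => w (sl W x z) * S.indicator (1 : E → ℝ) (sl W x z))
      (stdGaussian Wᗮ) := by
    refine Integrable.of_bound (C := 1) (hm.comp (measurable_sl_right W x)).aestronglyMeasurable
      (Eventually.of_forall fun z => ?_)
    rw [Real.norm_eq_abs, abs_of_nonneg (h0 _)]
    exact h1 _
  have h2 := integral_slice_eq W hm h0 x hi
  have e1 : (fun y => ENNReal.ofReal (w y * S.indicator (1 : E → ℝ) y))
      = fun y => ENNReal.ofReal (w y) * S.indicator (1 : E → ℝ≥0∞) y := by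
    funext y
    rw [ENNReal.ofReal_mul (hw.nonneg y)]
    congr 1
    by_cases hy : y ∈ S
    · simp [indicator_of_mem hy]
    · simp [indicator_of_notMem hy]
  rw [e1] at h2
  rw [← h2]
  congr 1

lemma fm_nonneg (W : Submodule ℝ E) (x : E) (w : E → ℝ) (S : Set E) : 0 ≤ fm W x w S :=
  ENNReal.toReal_nonneg

lemma UI_slice (W : Submodule ℝ E) (x : E) {w : E → ℝ} (hw : UI w) :
    UI fun z => w (sl W x z) :=
  ⟨hw.meas.comp (measurable_sl_right W x), fun z => hw.nonneg _, fun z => hw.le_one _⟩

lemma inv_of_const {v : E} {w : E → ℝ} (hwv : ∀ x (t : ℝ), w (x + t • v) = w x) :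
    Inv (Hp v) fun y => ENNReal.ofReal (w y) := by
  intro x u hu
  unfold Hp at hu
  rw [Submodule.orthogonal_orthogonal] at hu
  obtain ⟨t, rfl⟩ := Submodule.mem_span_singleton.mp hu
  simp only [hwv]

/-- the gain of the uncut star step against the gain of the cut one -/
theorem gain_cut {K : Set E} (hK : IsClosed K) (hKc : Convex ℝ K) {R : ℝ}
    (hKR : K ⊆ Metric.closedBall 0 R) {W : Submodule ℝ E} {v : E} (hWv : W ≤ Hp v) (hv : 0 < ‖v‖)
    (hv1 : ‖v‖ ≤ 1 / 10) {p Lam : ℝ} (hp0 : 0 ≤ p) (hp : p ≤ 1 / 4) (hL : 1 ≤ Lam)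
    {w : E → ℝ} (hw : UI w) (hwv : ∀ x (t : ℝ), w (x + t • v) = w x)
    (hA : ∀ y, w y ≠ 0 → OnLine K v R p Lam y) (x : E) :
    fm W x w (star K v \ K) ≤ 2 * fm W x w ((star K v ∩ Metric.closedBall 0 R) \ K) := by
  unfold fm
  have h := rim_fib hK hKc hKR hv hv1 hp0 hp hL hWv (inv_of_const hwv) hw.meas.ennreal_ofReal
    (fun y hy => hA y (fun h0 => hy (by simp [h0]))) x
  have hfin : fib W (fun y => ENNReal.ofReal (w y) *
      ((star K v ∩ Metric.closedBall 0 R) \ K).indicator 1 y) x ≠ ⊤ := by
    refine ne_top_of_le_ne_top ENNReal.one_ne_top (fib_le_one (fun y => ?_) x)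
    refine mul_le_one' (by rw [← ENNReal.ofReal_one]; exact ENNReal.ofReal_le_ofReal (hw.le_one y)) ?_
    by_cases hy : y ∈ (star K v ∩ Metric.closedBall 0 R) \ K
    · rw [indicator_of_mem hy]; rfl
    · rw [indicator_of_notMem hy]; exact bot_le
  have h2 := ENNReal.toReal_mono (ENNReal.mul_ne_top (by norm_num) hfin) h
  rwa [ENNReal.toReal_mul, ENNReal.toReal_ofNat] at h2

/-- **block STEPF**: the intermediate body of a star step cut with the ball, in the fibre of a
label. -/
theorem exists_mid_slice {K : Set E} (hK : IsClosed K) (hKc : Convex ℝ K) {R : ℝ}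
    (hKR : K ⊆ Metric.closedBall 0 R) {W : Submodule ℝ E} {v : Wᗮ} (hv : 0 < ‖v‖)
    (hv1 : ‖v‖ ≤ 1 / 10) {p Lam : ℝ} (hp0 : 0 ≤ p) (hp : p ≤ 1 / 4) (hL : 1 ≤ Lam)
    {w : E → ℝ} (hw : UI w) (hwv : ∀ x (t : ℝ), w (x + t • (v : E)) = w x)
    (hA : ∀ y, w y ≠ 0 → OnLine K v R p Lam y) (x : E) :
    ∃ C : Set Wᗮ, Convex ℝ C ∧ IsClosed C ∧ C ⊆ star (slice W x K) v ∧
      slice W x K \ C = slice W x K \ star (slice W x K) v ∧
      FluxLe (wf (fun z => w (sl W x z)) C) v
        (2 * fm W x w ((star K v ∩ Metric.closedBall 0 R) \ K)) ∧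
      ∫ z, |wf (fun z => w (sl W x z)) C z - wf (fun z => w (sl W x z)) (slice W x K) z|
          ∂stdGaussian Wᗮ
        ≤ 2 * fm W x w ((star K v ∩ Metric.closedBall 0 R) \ K)
          + fm W x w (K \ (star K v ∩ Metric.closedBall 0 R)) ∧
      ∫ z, |wf (fun z => w (sl W x z)) (slice W x (star K v ∩ Metric.closedBall 0 R)) z
          - wf (fun z => w (sl W x z)) C z| ∂stdGaussian Wᗮ
        ≤ 2 * fm W x w ((star K v ∩ Metric.closedBall 0 R) \ K) := by
  have hv0 : v ≠ 0 := norm_pos_iff.mp hv
  have hvE : 0 < ‖(v : E)‖ := hv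
  have hvE0 : (v : E) ≠ 0 := norm_pos_iff.mp hvE
  have hWv : W ≤ Hp (v : E) := le_Hp v
  have hKm := hK.measurableSet
  have hBm : MeasurableSet (Metric.closedBall (0 : E) R) := Metric.isClosed_closedBall.measurableSet
  have hSm := measurableSet_star hK hKR hvE0
  have hcut := gain_cut hK hKc hKR hWv hvE hv1 hp0 hp hL hw hwv hA x
  have hb : ∃ R' : ℝ, ∀ z ∈ slice W x K, |⟪v, z⟫| ≤ R' := by
    refine ⟨‖v‖ * (R + ‖W.starProjection x‖), fun z hz => ?_⟩
    have h1 : ‖sl W x z‖ ≤ R := by
      have := hKR hz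
      rwa [mem_closedBall_zero_iff] at this
    have h2 : ‖z‖ ≤ R + ‖W.starProjection x‖ := by
      have h3 : (z : E) = sl W x z - W.starProjection x := by unfold sl; abel
      calc ‖z‖ = ‖(z : E)‖ := rfl
        _ = ‖sl W x z - W.starProjection x‖ := by rw [← h3]
        _ ≤ ‖sl W x z‖ + ‖W.starProjection x‖ := norm_sub_le _ _
        _ ≤ _ := by linarith
    exact (abs_real_inner_le_norm v z).trans (mul_le_mul_of_nonneg_left h2 (norm_nonneg _))
  have hwx : UI fun z => w (sl W x z) := UI_slice W x hw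
  have hwxv : ∀ (z : Wᗮ) (t : ℝ), w (sl W x (z + t • v)) = w (sl W x z) := by
    intro z t
    rw [sl_add_smul, hwv]
  have hst : star (slice W x K) v = slice W x (star K (v : E)) := (slice_star W x K v).symm
  have hgain : ∫ z, w (sl W x z) * (star (slice W x K) v \ slice W x K).indicator 1 z
      ∂stdGaussian Wᗮ = fm W x w (star K v \ K) := by
    rw [hst, ← slice_diff]
    exact fm_eq W x hw (hSm.diff hKm)
  have hloss : ∫ z, w (sl W x z) * (slice W x K \ star (slice W x K) v).indicator 1 z
      ∂stdGaussian Wᗮ = fm W x w (K \ (star K v ∩ Metric.closedBall 0 R)) := by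
    rw [hst, ← slice_diff, loss_cut hKR]
    exact fm_eq W x hw (hKm.diff hSm)
  obtain ⟨C, hC1, hC2, hC3, -, hC5, hC6, hC7, hC8⟩ :=
    H108.exists_mid (isClosed_slice W x hK) (convex_slice W x hKc) hv0 hb hwx hwxv
  rw [hgain] at hC6 hC7 hC8
  rw [hloss] at hC7
  refine ⟨C, hC1, hC2, hC3, hC5, FluxLe.mono' hC6 hcut, by linarith, ?_⟩
  -- the last estimate: pointwise `|1_{K'ᶜ} - 1_{Cᶜ}| ≤ 1_{star K v \ K}`
  have hSx : MeasurableSet (star (slice W x K) v \ slice W x K) := by
    rw [hst, ← slice_diff]
    exact measurableSet_slice W x (hSm.diff hKm)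
  have hK'x : MeasurableSet (slice W x (star K v ∩ Metric.closedBall 0 R)) :=
    measurableSet_slice W x (hSm.inter hBm)
  have key : ∫ z, |wf (fun z => w (sl W x z)) (slice W x (star K v ∩ Metric.closedBall 0 R)) z
          - wf (fun z => w (sl W x z)) C z| ∂stdGaussian Wᗮ
      ≤ ∫ z, w (sl W x z) * (star (slice W x K) v \ slice W x K).indicator 1 z
        ∂stdGaussian Wᗮ := by
    refine integral_mono ?_ ?_ fun z => ?_
    · exact (((UI_wf hwx hK'x).integrable _).sub ((UI_wf hwx hC2.measurableSet).integrable _)).abs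
    · exact H108.integrable_w_ind hwx.meas hwx.nonneg hwx.le_one hSx
    · simp only [wf]
      rw [← mul_sub, abs_mul, abs_of_nonneg (hwx.nonneg z)]
      refine mul_le_mul_of_nonneg_left ?_ (hwx.nonneg z)
      by_cases hzK : z ∈ slice W x K
      · -- on `K` both bodies agree
        have hzB : sl W x z ∈ Metric.closedBall (0 : E) R := hKR hzK
        have hiff : z ∈ slice W x (star K v ∩ Metric.closedBall 0 R) ↔ z ∈ C := by
          constructor
          · intro h
            by_contra hc
            have h1 : z ∈ slice W x K \ C := ⟨hzK, hc⟩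
            rw [hC5] at h1
            exact h1.2 (by rw [hst]; exact h.1)
          · intro h
            refine ⟨?_, hzB⟩
            have := hC3 h
            rw [hst] at this
            exact this
        have h1 : (slice W x (star K v ∩ Metric.closedBall 0 R))ᶜ.indicator (1 : Wᗮ → ℝ) z
            = Cᶜ.indicator 1 z := by
          by_cases hz : z ∈ C
          · rw [indicator_of_notMem (not_not.mpr (hiff.mpr hz) : z ∉ _ᶜ),
              indicator_of_notMem (not_not.mpr hz : z ∉ Cᶜ)]
          · rw [indicator_of_mem (show z ∈ _ᶜ from fun h => hz (hiff.mp h)),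
              indicator_of_mem (show z ∈ Cᶜ from hz)]
        rw [h1, sub_self, abs_zero]
        exact indicator_nonneg (by simp) z
      · by_cases hzS : z ∈ star (slice W x K) v
        · rw [indicator_of_mem (show z ∈ star (slice W x K) v \ slice W x K from ⟨hzS, hzK⟩)]
          have a1 : ∀ S : Set Wᗮ, 0 ≤ S.indicator (1 : Wᗮ → ℝ) z := fun S =>
            indicator_nonneg (by simp) z
          have a2 : ∀ S : Set Wᗮ, S.indicator (1 : Wᗮ → ℝ) z ≤ 1 := fun S => by
            by_cases h : z ∈ S
            · simp [indicator_of_mem h]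
            · simp [indicator_of_notMem h]
          rw [Pi.one_apply, abs_le]
          exact ⟨by linarith [a1 (slice W x (star K v ∩ Metric.closedBall 0 R))ᶜ, a2 Cᶜ],
            by linarith [a2 (slice W x (star K v ∩ Metric.closedBall 0 R))ᶜ, a1 Cᶜ]⟩
        · have h1 : z ∉ C := fun h => hzS (hC3 h)
          have h2 : z ∉ slice W x (star K v ∩ Metric.closedBall 0 R) := by
            intro h
            apply hzS
            rw [hst]
            exact h.1
          rw [indicator_of_mem (show z ∈ (slice W x (star K v ∩ Metric.closedBall 0 R))ᶜ from h2),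
            indicator_of_mem (show z ∈ Cᶜ from h1), sub_self, abs_zero]
          exact indicator_nonneg (by simp) z
  rw [hgain] at key
  linarith

/-- **block STEPF, packaged**: a field `w 1_{Kᶜ} + k` with `k` constant along `v` (the killed
labels), read in the fibre of a label, has an intermediate field with flux at most twice the
weighted gain of the cut step, and the total `L¹` change through the intermediate field to any
field `f'` after the step is controlled. -/
theorem step_field {K : Set E} (hK : IsClosed K) (hKc : Convex ℝ K) {R : ℝ}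
    (hKR : K ⊆ Metric.closedBall 0 R) {W : Submodule ℝ E} {v : Wᗮ} (hv : 0 < ‖v‖)
    (hv1 : ‖v‖ ≤ 1 / 10) {p Lam : ℝ} (hp0 : 0 ≤ p) (hp : p ≤ 1 / 4) (hL : 1 ≤ Lam)
    {w k : E → ℝ} (hw : UI w) (hk : UI k) (hwk : ∀ x, w x + k x ≤ 1)
    (hwv : ∀ x (t : ℝ), w (x + t • (v : E)) = w x) (hkv : ∀ x (t : ℝ), k (x + t • (v : E)) = k x)
    (hA : ∀ y, w y ≠ 0 → OnLine K v R p Lam y) (x : E) {f f' : Wᗮ → ℝ}
    (hf : ∀ z, f z = w (sl W x z) * Kᶜ.indicator 1 (sl W x z) + k (sl W x z)) (hf' : UI f') :
    ∃ fh : Wᗮ → ℝ, UI fh ∧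
      FluxLe fh v (2 * fm W x w ((star K v ∩ Metric.closedBall 0 R) \ K)) ∧
      ∫ z, |fh z - f z| ∂stdGaussian Wᗮ
        ≤ 2 * fm W x w ((star K v ∩ Metric.closedBall 0 R) \ K)
          + fm W x w (K \ (star K v ∩ Metric.closedBall 0 R)) ∧
      ∫ z, |f' z - fh z| ∂stdGaussian Wᗮ
        ≤ ∫ z, |f' z - f z| ∂stdGaussian Wᗮ
          + (2 * fm W x w ((star K v ∩ Metric.closedBall 0 R) \ K)
            + fm W x w (K \ (star K v ∩ Metric.closedBall 0 R))) := by
  obtain ⟨C, hC1, hC2, hC3, hC5, hC6, hC7, hC8⟩ :=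
    exists_mid_slice hK hKc hKR hv hv1 hp0 hp hL hw hwv hA x
  have hwx : UI fun z => w (sl W x z) := UI_slice W x hw
  have hkx : UI fun z => k (sl W x z) := UI_slice W x hk
  have hCm := hC2.measurableSet
  have hKxm : MeasurableSet (slice W x K) := measurableSet_slice W x hK.measurableSet
  have hfe : f = fun z => wf (fun z => w (sl W x z)) (slice W x K) z + k (sl W x z) := by
    funext z
    rw [hf]
    congr 2
  have hle : ∀ (S : Set Wᗮ) z, wf (fun z => w (sl W x z)) S z ≤ w (sl W x z) := by
    intro S z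
    unfold wf
    refine mul_le_of_le_one_right (hw.nonneg _) ?_
    by_cases h : z ∈ Sᶜ
    · simp [indicator_of_mem h]
    · simp [indicator_of_notMem h]
  have hUI : ∀ {S : Set Wᗮ}, MeasurableSet S →
      UI fun z => wf (fun z => w (sl W x z)) S z + k (sl W x z) := by
    intro S hS
    have h1 := UI_wf hwx hS
    exact ⟨h1.meas.add hkx.meas, fun z => add_nonneg (h1.nonneg z) (hkx.nonneg z),
      fun z => by linarith [hle S z, hwk (sl W x z)]⟩
  have hUf : UI f := by
    rw [hfe]
    exact hUI hKxm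
  have hUfh := hUI hCm
  have h7 : ∫ z, |(wf (fun z => w (sl W x z)) C z + k (sl W x z)) - f z| ∂stdGaussian Wᗮ
      ≤ 2 * fm W x w ((star K v ∩ Metric.closedBall 0 R) \ K)
          + fm W x w (K \ (star K v ∩ Metric.closedBall 0 R)) := by
    refine le_trans (le_of_eq ?_) hC7
    congr 1
    funext z
    rw [hfe]
    congr 1
    ring
  refine ⟨fun z => wf (fun z => w (sl W x z)) C z + k (sl W x z), hUfh, ?_, h7, ?_⟩
  · refine fluxLe_add hC6 fun z t => ?_
    rw [sl_add_smul, hkv]
  · calc ∫ z, |f' z - (wf (fun z => w (sl W x z)) C z + k (sl W x z))| ∂stdGaussian Wᗮ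
        ≤ ∫ z, (|f' z - f z|
            + |(wf (fun z => w (sl W x z)) C z + k (sl W x z)) - f z|) ∂stdGaussian Wᗮ := by
          refine integral_mono ((hf'.integrable _).sub (hUfh.integrable _)).abs
            ((((hf'.integrable _).sub (hUf.integrable _)).abs).add
              (((hUfh.integrable _).sub (hUf.integrable _)).abs)) fun z => ?_
          have := abs_sub_abs_le_abs_sub (f' z - f z)
            ((wf (fun z => w (sl W x z)) C z + k (sl W x z)) - f z)
          have h2 := abs_sub (f' z - f z) ((wf (fun z => w (sl W x z)) C z + k (sl W x z)) - f z)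
          have e : f' z - (wf (fun z => w (sl W x z)) C z + k (sl W x z))
              = (f' z - f z) - ((wf (fun z => w (sl W x z)) C z + k (sl W x z)) - f z) := by ring
          simp only
          rw [e]
          exact abs_sub _ _
      _ = ∫ z, |f' z - f z| ∂stdGaussian Wᗮ
          + ∫ z, |(wf (fun z => w (sl W x z)) C z + k (sl W x z)) - f z| ∂stdGaussian Wᗮ :=
          integral_add ((hf'.integrable _).sub (hUf.integrable _)).abs
            ((hUfh.integrable _).sub (hUf.integrable _)).abs
      _ ≤ _ := by linarith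

end Vale.Agent.P262.H59
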