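import Vale.Agent.P262.H59.StepF
import Vale.Agent.P262.H654.FieldC

/-!
# P262, milestone 1, block STEPF, part 2: the star step with the ball cut, seen by the recursive
field `fl L 1_{Kᶜ}` of helper654 in the fibre of a label
-/

set_option linter.all false

open MeasureTheory ProbabilityTheory Set Filter Topology
open scoped ENNReal RealInnerProductSpace

namespace Vale.Agent.P262.H59

open Vale.Agent.P262.H395 Vale.Agent.P262.H852
open Vale.Agent.P262.H493 (star)
open Vale.Agent.P262.H847 (UI)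
open Vale.Agent.P262.H108 (wf UI_wf)
open Vale.Agent.P262.H941 (FluxLe)
open Vale.Agent.P262.H654 (Lev LevOK Good fl wt kt vis fr sg InvR Bd)

variable {E : Type*} [NormedAddCommGroup E] [InnerProductSpace ℝ E] [FiniteDimensional ℝ E]
  [MeasurableSpace E] [BorelSpace E]

section online

variable {K : Set E} {v : E} {R p Lam : ℝ}

lemma measurableSet_onLine (hK : MeasurableSet K) (hS : MeasurableSet (star K v)) :
    MeasurableSet {y | OnLine K v R p Lam y} := by
  unfold OnLine
  have hBm : MeasurableSet (Metric.closedBall (0 : E) R) := Metric.isClosed_closedBall.measurableSet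
  refine measurableSet_le ?_ ((measurable_fib (measurable_one.indicator hK.compl)).max
    (measurable_fib (measurable_one.indicator (hS.inter hBm).compl)))
  have : Continuous fun y : E =>
      Real.exp (-(p * (R ^ 2 - ‖(Hp v).starProjection y‖ ^ 2) - Lam)) := by fun_prop
  exact this.measurable.ennreal_ofReal

lemma onLine_congr {x y : E} (h : (Hp v).starProjection x = (Hp v).starProjection y) :
    OnLine K v R p Lam x ↔ OnLine K v R p Lam y := by
  unfold OnLine
  rw [h, (inv_fib (Hp v) _).eq_of h, (inv_fib (Hp v) (((star K v ∩ Metric.closedBall 0 R)ᶜ).indicator 1)).eq_of h]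

lemma Hp_proj_add (v x : E) (t : ℝ) :
    (Hp v).starProjection (x + t • v) = (Hp v).starProjection x := by
  rw [map_add]
  have : (Hp v).starProjection (t • v) = 0 := by
    apply proj_eq_zero
    unfold Hp
    rw [Submodule.orthogonal_orthogonal]
    exact Submodule.smul_mem _ _ (Submodule.mem_span_singleton_self v)
  rw [this, add_zero]

/-- the line condition from the complement of `K` alone -/
lemma onLine_of_le {y : E}
    (h : ENNReal.ofReal (Real.exp (-(p * (R ^ 2 - ‖(Hp v).starProjection y‖ ^ 2) - Lam)))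
      ≤ fib (Hp v) (Kᶜ.indicator 1) y) : OnLine K v R p Lam y :=
  h.trans (le_max_left _ _)

end online

/-- **block STEPF with a line condition only in the fibre of the label `x`.** -/
theorem step_field' {K : Set E} (hK : IsClosed K) (hKc : Convex ℝ K) {R : ℝ}
    (hKR : K ⊆ Metric.closedBall 0 R) {W : Submodule ℝ E} {v : Wᗮ} (hv : 0 < ‖v‖)
    (hv1 : ‖v‖ ≤ 1 / 10) {p Lam : ℝ} (hp0 : 0 ≤ p) (hp : p ≤ 1 / 4) (hL : 1 ≤ Lam)
    {w k : E → ℝ} (hw : UI w) (hk : UI k) (hwk : ∀ x, w x + k x ≤ 1)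
    (hwv : ∀ x (t : ℝ), w (x + t • (v : E)) = w x) (hkv : ∀ x (t : ℝ), k (x + t • (v : E)) = k x)
    (x : E) (hA : ∀ z : Wᗮ, w (sl W x z) ≠ 0 → OnLine K v R p Lam (sl W x z)) {f f' : Wᗮ → ℝ}
    (hf : ∀ z, f z = w (sl W x z) * Kᶜ.indicator 1 (sl W x z) + k (sl W x z)) (hf' : UI f') :
    ∃ fh : Wᗮ → ℝ, UI fh ∧
      FluxLe fh v (2 * fm W x w ((star K v ∩ Metric.closedBall 0 R) \ K)) ∧
      ∫ z, |fh z - f z| ∂stdGaussian Wᗮ
        ≤ 2 * fm W x w ((star K v ∩ Metric.closedBall 0 R) \ K)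
          + fm W x w (K \ (star K v ∩ Metric.closedBall 0 R)) ∧
      ∫ z, |f' z - fh z| ∂stdGaussian Wᗮ
        ≤ ∫ z, |f' z - f z| ∂stdGaussian Wᗮ
          + (2 * fm W x w ((star K v ∩ Metric.closedBall 0 R) \ K)
            + fm W x w (K \ (star K v ∩ Metric.closedBall 0 R))) := by
  have hvE : 0 < ‖(v : E)‖ := hv
  have hvE0 : (v : E) ≠ 0 := norm_pos_iff.mp hvE
  have hSm := measurableSet_star hK hKR hvE0
  have hBm : MeasurableSet (Metric.closedBall (0 : E) R) := Metric.isClosed_closedBall.measurableSet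
  set O : Set E := {y | OnLine K v R p Lam y} with hO
  have hOm : MeasurableSet O := measurableSet_onLine hK.measurableSet hSm
  set w' : E → ℝ := O.indicator w with hw'
  have h0 : ∀ y, 0 ≤ w' y := fun y => indicator_nonneg (fun y _ => hw.nonneg y) y
  have h1 : ∀ y, w' y ≤ w y := fun y => indicator_le_self' (fun y _ => hw.nonneg y) y
  have hw'U : UI w' := ⟨hw.meas.indicator hOm, h0, fun y => (h1 y).trans (hw.le_one y)⟩
  have hOv : ∀ y (t : ℝ), (y + t • (v : E) ∈ O ↔ y ∈ O) := fun y t =>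
    onLine_congr (Hp_proj_add (v : E) y t)
  have hw'v : ∀ y (t : ℝ), w' (y + t • (v : E)) = w' y := by
    intro y t
    by_cases hy : y ∈ O
    · rw [hw', indicator_of_mem ((hOv y t).mpr hy), indicator_of_mem hy, hwv]
    · rw [hw', indicator_of_notMem (fun h => hy ((hOv y t).mp h)), indicator_of_notMem hy]
  have hA' : ∀ y, w' y ≠ 0 → OnLine K v R p Lam y := by
    intro y hy
    by_contra hc
    exact hy (indicator_of_notMem (show y ∉ O from hc) _)
  have hfib : ∀ z : Wᗮ, w' (sl W x z) = w (sl W x z) := by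
    intro z
    by_cases hz : w (sl W x z) = 0
    · by_cases hy : sl W x z ∈ O
      · rw [hw', indicator_of_mem hy]
      · rw [hw', indicator_of_notMem hy, hz]
    · rw [hw', indicator_of_mem (show sl W x z ∈ O from hA z hz)]
  have hfm : ∀ {S : Set E}, MeasurableSet S → fm W x w' S = fm W x w S := by
    intro S hS
    rw [← fm_eq W x hw'U hS, ← fm_eq W x hw hS]
    congr 1
    funext z
    rw [hfib]
  have hK'm := hSm.inter hBm
  have := step_field hK hKc hKR hv hv1 hp0 hp hL hw'U hk (fun y => by linarith [h1 y, hwk y]) hw'v hkv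
    hA' x (f := f) (f' := f') (fun z => by rw [hf, hfib]) hf'
  rw [hfm (hK'm.diff hK.measurableSet), hfm (hK.measurableSet.diff hK'm)] at this
  exact this

section field

variable {c0 : ℝ} {L : List (Lev E)} {g : E → ℝ} {W : Submodule ℝ E} {v : E}

lemma fr_eq_toReal {f : E → ℝ} (hf : UI f) (W : Submodule ℝ E) (x : E) :
    fr W f x = (fib W (fun y => ENNReal.ofReal (f y)) x).toReal := by
  have h := H654.ofReal_fr (W := W) (Bd.of_UI hf) hf.nonneg x
  have h2 : fib W (fun y => ENNReal.ofReal (f y)) x = ENNReal.ofReal (fr W f x) := by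
    rw [h]
  rw [h2, ENNReal.toReal_ofReal (H654.fr_nonneg hf.nonneg x)]

/-- fibre averages of `UI` functions, in the type `Wᗮ` -/
lemma fr_eq_integral {f : E → ℝ} (hf : UI f) (W : Submodule ℝ E) (x : E) :
    ∫ z, f (sl W x z) ∂stdGaussian Wᗮ = fr W f x := by
  rw [fr_eq_toReal hf]
  exact integral_slice_eq W hf.meas hf.nonneg x ((UI_slice W x hf).integrable _)

lemma UI_mul_ind {w : E → ℝ} (hw : UI w) {S : Set E} (hS : MeasurableSet S) :
    UI fun y => w y * S.indicator (fun _ => (1 : ℝ)) y := by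
  refine ⟨hw.meas.mul (measurable_const.indicator hS), fun y =>
    mul_nonneg (hw.nonneg y) (indicator_nonneg (by simp) y), fun y => ?_⟩
  by_cases h : y ∈ S
  · rw [indicator_of_mem h, mul_one]; exact hw.le_one y
  · rw [indicator_of_notMem h, mul_zero]; exact zero_le_one

lemma fm_eq_fr {w : E → ℝ} (hw : UI w) {S : Set E} (hS : MeasurableSet S) (W : Submodule ℝ E)
    (x : E) : fm W x w S = fr W (fun y => w y * S.indicator (fun _ => (1 : ℝ)) y) x := by
  rw [fr_eq_toReal (UI_mul_ind hw hS), fm]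
  congr 2
  funext y
  rw [ENNReal.ofReal_mul (hw.nonneg y)]
  congr 1
  by_cases hy : y ∈ S
  · simp [indicator_of_mem hy]
  · simp [indicator_of_notMem hy]

lemma const_of_invR {w : E → ℝ} (hw : InvR (Hp v) w) (x : E) (t : ℝ) : w (x + t • v) = w x := by
  apply hw
  unfold Hp
  rw [Submodule.orthogonal_orthogonal]
  exact Submodule.smul_mem _ _ (Submodule.mem_span_singleton_self v)

lemma wt_add_kt_le (hL : Good c0 L) (hc : c0 ≤ 1 / 16) (hg : UI g) (x : E) :
    wt L g x + kt L g x ≤ 1 := by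
  induction L with
  | nil => simp [wt, kt]
  | cons q L ih =>
    obtain ⟨hq, hab, hL⟩ := hL
    have h1 := ih hL
    rw [H654.wt_cons, H654.kt_cons]
    have hF := H654.UI.fr (H654.fl_UI hL hc hg) q.W
    have hph := H654.ph_UI hq hc hF
    by_cases hx : x ∈ q.Z
    · have e1 : H654.ph q (fr q.W (fl L g)) x = 0 := by
        unfold H654.ph
        rw [if_pos hx]
      have e2 : H654.nk q x = 0 := by
        unfold H654.nk
        rw [if_pos hx]
      rw [e1, e2]
      simp
    · have e2 : H654.nk q x = 1 := by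
        unfold H654.nk
        rw [if_neg hx]
      rw [e2]
      have h2 : H654.ph q (fr q.W (fl L g)) x * (wt L g x + kt L g x) ≤ 1 :=
        mul_le_one₀ (hph.le_one x)
          (add_nonneg ((H654.wt_UI hL hc hg).nonneg x) ((H654.kt_UI hL hc hg).nonneg x)) h1
      linarith

/-- a level with nonzero weight is above its threshold -/
lemma lt_of_wt_ne {L0 : List (Lev E)} {q : Lev E} {y : E} (hy : wt (L0 ++ [q]) g y ≠ 0) :
    y ∉ q.Z ∧ q.c y < fr q.W g y := by
  induction L0 with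
  | nil =>
    rw [List.nil_append, H654.wt_cons] at hy
    have h1 : H654.ph q (fr q.W (fl [] g)) y ≠ 0 := left_ne_zero_of_mul hy
    unfold H654.ph at h1
    by_cases hz : y ∈ q.Z
    · rw [if_pos hz] at h1
      exact absurd rfl h1
    · rw [if_neg hz] at h1
      refine ⟨hz, ?_⟩
      by_contra hc
      exact h1 (H654.phi_zero (not_lt.mp hc))
  | cons r L0 ih =>
    rw [List.cons_append, H654.wt_cons] at hy
    exact ih (right_ne_zero_of_mul hy)

/-- the line condition holds where the weight of the field does not vanish -/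
lemma onLine_of_wt {K : Set E} (hK : MeasurableSet K) {R p Lam : ℝ} {L0 : List (Lev E)} {q : Lev E}
    (hq : q.W = Hp v) (hcap : ∀ y, y ∉ q.Z →
      Real.exp (-(p * (R ^ 2 - ‖(Hp v).starProjection y‖ ^ 2) - Lam)) ≤ q.c y) {y : E}
    (hy : wt (L0 ++ [q]) (Kᶜ.indicator fun _ => (1 : ℝ)) y ≠ 0) : OnLine K v R p Lam y := by
  obtain ⟨h1, h2⟩ := lt_of_wt_ne hy
  apply onLine_of_le
  have hUI : UI (Kᶜ.indicator fun _ => (1 : ℝ)) := by
    have := UI_mul_ind (E := E) (w := fun _ => (1 : ℝ))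
      ⟨measurable_const, fun _ => zero_le_one, fun _ => le_rfl⟩ hK.compl
    simpa using this
  have h3 : ENNReal.ofReal (fr (Hp v) (Kᶜ.indicator fun _ => (1 : ℝ)) y)
      = fib (Hp v) (Kᶜ.indicator 1) y := by
    rw [H654.ofReal_fr (Bd.of_UI hUI) hUI.nonneg]
    congr 1
    funext z
    by_cases hz : z ∈ Kᶜ
    · simp [indicator_of_mem hz]
    · simp [indicator_of_notMem hz]
  rw [← h3]
  apply ENNReal.ofReal_le_ofReal
  rw [hq] at h2
  exact (hcap y h1).trans h2.le

/-- **block STEPF for the recursive field of helper654.** `K' = star K v ∩ B`; the levels `L` below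
the label `W` all have label spaces orthogonal to `v`. -/
theorem step_fl {K : Set E} (hK : IsClosed K) (hKc : Convex ℝ K) {R : ℝ}
    (hKR : K ⊆ Metric.closedBall 0 R) {W : Submodule ℝ E} {v : Wᗮ} (hv : 0 < ‖v‖)
    (hv1 : ‖v‖ ≤ 1 / 10) {p Lam : ℝ} (hp0 : 0 ≤ p) (hp : p ≤ 1 / 4) (hLam : 1 ≤ Lam)
    {L : List (Lev E)} (hL : Good c0 L) (hc0 : 0 ≤ c0) (hc : c0 ≤ 1 / 16)
    (hW : ∀ q ∈ L, W ≤ q.W) (hLv : ∀ q ∈ L, q.W ≤ Hp (v : E)) (x : E)
    (hA : ∀ z : Wᗮ, wt L (Kᶜ.indicator fun _ => (1 : ℝ)) (sl W x z) ≠ 0 →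
      OnLine K v R p Lam (sl W x z)) :
    ∃ mf : Wᗮ → ℝ, ∃ F a₁ a₂ : ℝ, UI mf ∧ 0 ≤ F ∧ 0 ≤ a₁ ∧ 0 ≤ a₂ ∧ FluxLe mf v F ∧
      ∫ z, |mf z - fl L (Kᶜ.indicator fun _ => (1 : ℝ)) (sl W x z)| ∂stdGaussian Wᗮ ≤ a₁ ∧
      ∫ z, |fl L ((star K v ∩ Metric.closedBall 0 R)ᶜ.indicator fun _ => (1 : ℝ)) (sl W x z)
        - mf z| ∂stdGaussian Wᗮ ≤ a₂ ∧
      F + a₁ + a₂ ≤ (6 + sg c0 ^ L.length)
        * fr W (fun y => vis L ((K ∩ (star K v ∩ Metric.closedBall 0 R))ᶜ.indicator
            fun _ => (1 : ℝ)) y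
          * ((star K v ∩ Metric.closedBall 0 R) \ K ∪ K \ (star K v ∩ Metric.closedBall 0 R)).indicator
            (fun _ => (1 : ℝ)) y) x := by
  have hvE : 0 < ‖(v : E)‖ := hv
  have hvE0 : (v : E) ≠ 0 := norm_pos_iff.mp hvE
  have hSm := measurableSet_star hK hKR hvE0
  have hBm : MeasurableSet (Metric.closedBall (0 : E) R) := Metric.isClosed_closedBall.measurableSet
  set K' : Set E := star K v ∩ Metric.closedBall 0 R with hK'
  have hK'm : MeasurableSet K' := hSm.inter hBm
  have hKm := hK.measurableSet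
  have hone : UI fun _ : E => (1 : ℝ) := ⟨measurable_const, fun _ => zero_le_one, fun _ => le_rfl⟩
  have hind : ∀ {S : Set E}, MeasurableSet S → UI (S.indicator fun _ => (1 : ℝ)) := by
    intro S hS
    have := UI_mul_ind hone hS
    simpa using this
  set g : E → ℝ := Kᶜ.indicator fun _ => (1 : ℝ) with hg
  set g' : E → ℝ := K'ᶜ.indicator fun _ => (1 : ℝ) with hg'
  have hgU : UI g := hind hKm.compl
  have hg'U : UI g' := hind hK'm.compl
  set G : E → ℝ := (K ∩ K')ᶜ.indicator fun _ => (1 : ℝ) with hG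
  have hGU : UI G := hind (hKm.inter hK'm).compl
  have hmax : (fun z => max (g z) (g' z)) = G := by
    funext z
    simp only [hg, hg', hG]
    by_cases h1 : z ∈ K
    · by_cases h2 : z ∈ K'
      · rw [indicator_of_notMem (not_not.mpr h1 : z ∉ Kᶜ),
          indicator_of_notMem (not_not.mpr h2 : z ∉ K'ᶜ),
          indicator_of_notMem (not_not.mpr ⟨h1, h2⟩ : z ∉ (K ∩ K')ᶜ)]
        simp
      · rw [indicator_of_notMem (not_not.mpr h1 : z ∉ Kᶜ),
          indicator_of_mem (show z ∈ K'ᶜ from h2),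
          indicator_of_mem (show z ∈ (K ∩ K')ᶜ from fun h => h2 h.2)]
        simp
    · rw [indicator_of_mem (show z ∈ Kᶜ from h1),
        indicator_of_mem (show z ∈ (K ∩ K')ᶜ from fun h => h1 h.1)]
      by_cases h2 : z ∈ K'
      · rw [indicator_of_notMem (not_not.mpr h2 : z ∉ K'ᶜ)]
        simp
      · rw [indicator_of_mem (show z ∈ K'ᶜ from h2)]
        simp
  have gin : ∀ z, z ∈ K → g z = 0 := fun z h =>
    indicator_of_notMem (show z ∉ Kᶜ from fun h' => h' h) _
  have gout : ∀ z, z ∉ K → g z = 1 := fun z h => indicator_of_mem (show z ∈ Kᶜ from h) _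
  have gin' : ∀ z, z ∈ K' → g' z = 0 := fun z h =>
    indicator_of_notMem (show z ∉ K'ᶜ from fun h' => h' h) _
  have gout' : ∀ z, z ∉ K' → g' z = 1 := fun z h => indicator_of_mem (show z ∈ K'ᶜ from h) _
  have habs : ∀ z, |g' z - g z| = (K' \ K ∪ K \ K').indicator (fun _ => (1 : ℝ)) z := by
    intro z
    by_cases h1 : z ∈ K
    · by_cases h2 : z ∈ K'
      · rw [gin z h1, gin' z h2,
          indicator_of_notMem (fun h => by rcases h with h | h; exacts [h.2 h1, h.2 h2])]
        simp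
      · rw [gin z h1, gout' z h2,
          indicator_of_mem (show z ∈ (K' \ K ∪ K \ K') from Or.inr ⟨h1, h2⟩)]
        simp
    · by_cases h2 : z ∈ K'
      · rw [gout z h1, gin' z h2,
          indicator_of_mem (show z ∈ (K' \ K ∪ K \ K') from Or.inl ⟨h2, h1⟩)]
        simp
      · rw [gout z h1, gout' z h2,
          indicator_of_notMem (fun h => by rcases h with h | h; exacts [h2 h.1, h1 h.1])]
        simp
  have hwU := H654.wt_UI hL hc hgU
  have hkU := H654.kt_UI hL hc hgU
  obtain ⟨⟨hwI, hkI, -⟩, -, -⟩ := H654.cond_aux (W' := Hp (v : E)) hL hc hgU hLv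
  have hf'U : UI fun z => fl L g' (sl W x z) := UI_slice W x (H654.fl_UI hL hc hg'U)
  have hfU : UI fun z => fl L g (sl W x z) := UI_slice W x (H654.fl_UI hL hc hgU)
  obtain ⟨fh, hfhU, hfl, h1, h2⟩ := step_field' hK hKc hKR hv hv1 hp0 hp hLam hwU hkU
    (wt_add_kt_le hL hc hgU) (const_of_invR hwI) (const_of_invR hkI) x hA
    (f := fun z => fl L g (sl W x z)) (f' := fun z => fl L g' (sl W x z))
    (fun z => by
      rw [H654.fl_eq]
      congr 2) hf'U
  set Gn : ℝ := fm W x (wt L g) (K' \ K) with hGn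
  set Ls : ℝ := fm W x (wt L g) (K \ K') with hLs
  have hGn0 : 0 ≤ Gn := fm_nonneg _ _ _ _
  have hLs0 : 0 ≤ Ls := fm_nonneg _ _ _ _
  have hvisU := H654.vis_UI hL hc hGU
  set V : ℝ := fr W (fun y => vis L G y * (K' \ K ∪ K \ K').indicator (fun _ => (1 : ℝ)) y) x with hV
  have hgG : ∀ z, g z ≤ G z := by
    intro z
    rw [← hmax]
    exact le_max_left _ _
  have hwv : ∀ z, wt L g z ≤ vis L G z := fun z =>
    (H654.wt_mono hL hc hgU hGU hgG z).trans (H654.wt_le_vis hL hc hGU z)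
  have hGV : Gn + Ls ≤ V := by
    rw [hGn, hLs, fm_eq_fr hwU (hK'm.diff hKm), fm_eq_fr hwU (hKm.diff hK'm)]
    rw [← H654.fr_add (Bd.of_UI (UI_mul_ind hwU (hK'm.diff hKm)))
      (Bd.of_UI (UI_mul_ind hwU (hKm.diff hK'm)))]
    refine H654.fr_mono ((Bd.of_UI (UI_mul_ind hwU (hK'm.diff hKm))).add
      (Bd.of_UI (UI_mul_ind hwU (hKm.diff hK'm))))
      (Bd.of_UI (UI_mul_ind hvisU ((hK'm.diff hKm).union (hKm.diff hK'm)))) (fun z => ?_) x
    rw [← mul_add]
    have e : (K' \ K).indicator (fun _ => (1 : ℝ)) z + (K \ K').indicator (fun _ => (1 : ℝ)) z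
        = (K' \ K ∪ K \ K').indicator (fun _ => (1 : ℝ)) z := by
      rw [indicator_union_of_disjoint]
      rw [Set.disjoint_left]
      intro y hy hy'
      exact hy.2 hy'.1
    rw [e]
    exact mul_le_mul_of_nonneg_right (hwv z) (indicator_nonneg (by simp) z)
  have hff : ∫ z, |fl L g' (sl W x z) - fl L g (sl W x z)| ∂stdGaussian Wᗮ
      ≤ sg c0 ^ L.length * V := by
    have e1 := H654.fr_abs_fl_sub_le hL hc0 hc hgU hg'U hW x
    rw [hmax] at e1
    simp only [habs] at e1
    have hU : UI fun y => |fl L g' y - fl L g y| := by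
      have a := H654.fl_UI hL hc hg'U
      have b := H654.fl_UI hL hc hgU
      refine ⟨(a.meas.sub b.meas).abs, fun y => abs_nonneg _, fun y => ?_⟩
      rw [abs_le]
      exact ⟨by linarith [a.nonneg y, b.le_one y], by linarith [a.le_one y, b.nonneg y]⟩
    rw [← fr_eq_integral hU] at e1
    exact e1
  refine ⟨fh, 2 * Gn, 2 * Gn + Ls,
    ∫ z, |fl L g' (sl W x z) - fl L g (sl W x z)| ∂stdGaussian Wᗮ + (2 * Gn + Ls), hfhU,
    by positivity, by positivity, ?_, hfl, h1, h2, ?_⟩
  · have : 0 ≤ ∫ z, |fl L g' (sl W x z) - fl L g (sl W x z)| ∂stdGaussian Wᗮ :=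
      integral_nonneg fun z => abs_nonneg _
    positivity
  · nlinarith

end field

end Vale.Agent.P262.H59
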